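import Vale.Agent.P291.GDet

set_option autoImplicit false
set_option linter.unusedSectionVars false
set_option linter.unusedSimpArgs false

/-! Chain straightening for products of determinantal ideals. -/

namespace Vale.Agent.P291.GChain

open Finset Matrix Vale.Agent.P291.GDet

section
variable {Q : Type} [Fintype Q] [DecidableEq Q] {R : Type} [CommRing R] {v : Q → ℕ}
  {Ar : Type} [Fintype Ar] (src tgt : Ar → Q) {C : Type} [CommMonoid C]
  (Φ : (i : Q) → C →* Matrix (Fin (v i)) (Fin (v i)) R) (fr : Q → C) (l : Ar → C)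

/-- `fr i` times the product of the factors of the arrows leaving `i` whose target is not in `m`. -/
def gpol (i : Q) (m : Q → ℕ) : C := fr i * ∏ a with src a = i ∧ m (tgt a) = 0, l a

/-- product of determinantal ideals. -/
def Lm (m : Q → ℕ) : Ideal R := ∏ i, detIdeal (Φ i (gpol src tgt fr l i m)) (m i)

variable (J : Q → Prop) [DecidablePred J]

lemma comm_mul (i : Q) (a b : C) : Φ i a * Φ i b = Φ i (a * b) := (map_mul _ _ _).symm

/-- one vertex -/
lemma pair_vertex (i : Q) (m1 m2 m1' m2' : Q → ℕ)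
    (h1' : ∀ a, m1' (tgt a) = 0 ↔ m1 (tgt a) = 0 ∧ m2 (tgt a) = 0)
    (h2' : ∀ a, m2' (tgt a) = 0 ↔ m1 (tgt a) = 0 ∨ m2 (tgt a) = 0) (a b : ℕ) :
    detIdeal (Φ i (gpol src tgt fr l i m1)) a * detIdeal (Φ i (gpol src tgt fr l i m2)) b ≤
      ∑ p ∈ antidiagonal (a + b), detIdeal (Φ i (gpol src tgt fr l i m1')) p.1 *
        detIdeal (Φ i (gpol src tgt fr l i m2')) p.2 := by
  classical
  set Y : C := ∏ a with src a = i ∧ (m1 (tgt a) = 0 ∧ m2 (tgt a) ≠ 0), l a with hY
  set Z : C := ∏ a with src a = i ∧ (m2 (tgt a) = 0 ∧ m1 (tgt a) ≠ 0), l a with hZ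
  have e1 : gpol src tgt fr l i m1 = Y * gpol src tgt fr l i m1' := by
    rw [gpol, gpol, mul_left_comm]
    congr 1
    rw [hY, ← Finset.prod_union]
    · refine Finset.prod_congr ?_ fun _ _ => rfl
      ext x
      simp only [Finset.mem_filter, Finset.mem_union, Finset.mem_univ, true_and, h1']
      tauto
    · rw [Finset.disjoint_filter]
      intro x _ hx
      rw [h1']
      tauto
  have e2 : gpol src tgt fr l i m2 = gpol src tgt fr l i m1' * Z := by
    rw [gpol, gpol, mul_assoc]
    congr 1
    rw [hZ, ← Finset.prod_union]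
    · refine Finset.prod_congr ?_ fun _ _ => rfl
      ext x
      simp only [Finset.mem_filter, Finset.mem_union, Finset.mem_univ, true_and, h1']
      tauto
    · rw [Finset.disjoint_filter]
      intro x _ hx
      rw [h1'] at hx
      tauto
  have e3 : gpol src tgt fr l i m2' = Y * gpol src tgt fr l i m1' * Z := by
    rw [← e1, gpol, gpol, mul_assoc]
    congr 1
    rw [hZ, ← Finset.prod_union]
    · refine Finset.prod_congr ?_ fun _ _ => rfl
      ext x
      simp only [Finset.mem_filter, Finset.mem_union, Finset.mem_univ, true_and, h2']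
      tauto
    · rw [Finset.disjoint_filter]
      intro x _ hx
      tauto
  rw [e1, e2, e3, map_mul, map_mul, map_mul, map_mul]
  exact frobenius _ _ _ a b

/-- the set of allowed replacements of a pair at a vertex -/
def tset (m1 m2 : Q → ℕ) (i : Q) : Finset (ℕ × ℕ) :=
  if J i then {(max (m1 i) (m2 i), min (m1 i) (m2 i))} else antidiagonal (m1 i + m2 i)

lemma gpol_congr (i : Q) (m m' : Q → ℕ) (h : ∀ a, m (tgt a) = 0 ↔ m' (tgt a) = 0) :
    gpol src tgt fr l i m = gpol src tgt fr l i m' := by
  rw [gpol, gpol]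
  congr 1
  refine Finset.prod_congr ?_ fun _ _ => rfl
  ext x
  simp only [Finset.mem_filter, h]

lemma mul_le_sum {ι : Type} (s : Finset ι) (f : ι → Ideal R) (p : ι) (hp : p ∈ s) :
    f p ≤ ∑ p ∈ s, f p := Finset.single_le_sum (f := f) (fun p _ => bot_le) hp

lemma sum_le_iff {ι : Type} (s : Finset ι) (f : ι → Ideal R) (I : Ideal R) (h : ∀ p ∈ s, f p ≤ I) :
    ∑ p ∈ s, f p ≤ I := by
  rw [Ideal.sum_eq_sup]
  exact Finset.sup_le h

/-- one vertex, with the stronger conclusion at the vertices in `J` -/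
lemma pair_vertex' (hJ : ∀ i, J i → v i ≤ 1) (ht : ∀ a, J (tgt a)) (i : Q)
    (m1 m2 : Q → ℕ) (h1 : ∀ i, m1 i ≤ v i) (h2 : ∀ i, m2 i ≤ v i) :
    detIdeal (Φ i (gpol src tgt fr l i m1)) (m1 i) * detIdeal (Φ i (gpol src tgt fr l i m2)) (m2 i) ≤
      ∑ p ∈ tset J m1 m2 i,
        detIdeal (Φ i (gpol src tgt fr l i fun j => max (m1 j) (m2 j))) p.1 *
        detIdeal (Φ i (gpol src tgt fr l i fun j => min (m1 j) (m2 j))) p.2 := by
  classical
  have h := pair_vertex src tgt Φ fr l i m1 m2 (fun j => max (m1 j) (m2 j))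
    (fun j => min (m1 j) (m2 j)) (fun a => by simp only [Nat.max_eq_zero_iff])
    (fun a => by simp only [Nat.min_eq_zero_iff]) (m1 i) (m2 i)
  rw [tset]
  split_ifs with hi
  · refine h.trans ?_
    rw [Finset.sum_singleton]
    refine sum_le_iff _ _ _ fun p hp => ?_
    rw [HasAntidiagonal.mem_antidiagonal] at hp
    have hv := hJ i hi
    have b1 := h1 i
    have b2 := h2 i
    simp only
    by_cases c1 : v i < p.1
    · rw [detIdeal_eq_bot _ (by simpa using c1), Ideal.bot_mul]; exact bot_le
    by_cases c2 : v i < p.2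
    · rw [detIdeal_eq_bot (Φ i (gpol src tgt fr l i fun j => min (m1 j) (m2 j)))
        (by simpa using c2), Ideal.mul_bot]
      exact bot_le
    by_cases c3 : p.1 = max (m1 i) (m2 i)
    · have c4 : p.2 = min (m1 i) (m2 i) := by omega
      rw [c3, c4]
    · have c5 : p.1 = 0 := by omega
      have c6 : p.2 = 1 := by omega
      have c7 : max (m1 i) (m2 i) = 1 := by omega
      have c8 : min (m1 i) (m2 i) = 0 := by omega
      rw [c5, c6, c7, c8, detIdeal_zero, detIdeal_zero, Ideal.one_eq_top.symm, one_mul, mul_one]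
      -- `min` polynomial is a multiple of the `max` polynomial
      obtain ⟨c, hc⟩ : ∃ c, gpol src tgt fr l i (fun j => min (m1 j) (m2 j)) =
          gpol src tgt fr l i (fun j => max (m1 j) (m2 j)) * c := by
        refine ⟨∏ a with src a = i ∧ (min (m1 (tgt a)) (m2 (tgt a)) = 0 ∧
          ¬ max (m1 (tgt a)) (m2 (tgt a)) = 0), l a, ?_⟩
        rw [gpol, gpol, mul_assoc]
        congr 1
        rw [← Finset.prod_union]
        · refine Finset.prod_congr ?_ fun _ _ => rfl
          ext x
          simp only [Finset.mem_filter, Finset.mem_union, Finset.mem_univ, true_and]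
          constructor
          · rintro ⟨q1, q2⟩
            by_cases q3 : max (m1 (tgt x)) (m2 (tgt x)) = 0
            · exact Or.inl ⟨q1, q3⟩
            · exact Or.inr ⟨q1, q2, q3⟩
          · rintro (⟨q1, q2⟩ | ⟨q1, q2, q3⟩)
            · exact ⟨q1, by omega⟩
            · exact ⟨q1, q2⟩
        · rw [Finset.disjoint_filter]
          intro x _ hx
          tauto
      rw [hc, map_mul]
      exact detIdeal_mul_le _ _ _
  · exact h

/-- the pair lemma -/
lemma pair_le (hJ : ∀ i, J i → v i ≤ 1) (ht : ∀ a, J (tgt a))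
    (m1 m2 : Q → ℕ) (h1 : ∀ i, m1 i ≤ v i) (h2 : ∀ i, m2 i ≤ v i) :
    Lm src tgt Φ fr l m1 * Lm src tgt Φ fr l m2 ≤
      ∑ p ∈ Fintype.piFinset (tset J m1 m2), Lm src tgt Φ fr l (fun i => (p i).1) *
        Lm src tgt Φ fr l (fun i => (p i).2) := by
  rw [Lm, Lm, ← Finset.prod_mul_distrib]
  refine le_trans (Finset.prod_le_prod' (N := Ideal R) fun i _ =>
    pair_vertex' src tgt Φ fr l J hJ ht i m1 m2 h1 h2) ?_
  rw [Finset.prod_univ_sum]
  refine Finset.sum_le_sum fun p hp => ?_
  rw [Lm, Lm, ← Finset.prod_mul_distrib]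
  refine le_of_eq (Finset.prod_congr rfl fun i _ => ?_)
  rw [Fintype.mem_piFinset] at hp
  have hp' : ∀ j, J j → p j = (max (m1 j) (m2 j), min (m1 j) (m2 j)) := by
    intro j hj
    have := hp j
    rw [tset, if_pos hj, Finset.mem_singleton] at this
    exact this
  congr 2
  · congr 1
    exact gpol_congr _ _ _ _ _ _ _ fun a => by rw [hp' _ (ht a)]
  · congr 1
    exact gpol_congr _ _ _ _ _ _ _ fun a => by rw [hp' _ (ht a)]

/-- the measure -/
def meas {K : ℕ} (m : Fin K → Q → ℕ) : ℕ := ∑ c : Fin K, (c : ℕ) * ∑ j with J j, m c j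

lemma Lm_eq_bot (m : Q → ℕ) (i : Q) (h : v i < m i) : Lm src tgt Φ fr l m = ⊥ := by
  rw [Lm]
  exact Finset.prod_eq_zero (mem_univ i) (detIdeal_eq_bot _ (by simpa using h))

lemma straighten (hJ : ∀ i, J i → v i ≤ 1) (ht : ∀ a, J (tgt a)) {K : ℕ} (d c : Ideal R) :
    ∀ (N : ℕ) (m : Fin K → Q → ℕ), meas J m = N → (∀ c i, m c i ≤ v i) →
    (∀ m' : Fin K → Q → ℕ, (∀ c i, m' c i ≤ v i) → (∀ i, ∑ c, m' c i = ∑ c, m c i) →
      (∀ j, J j → Antitone fun c => m' c j) → (∏ k, Lm src tgt Φ fr l (m' k)) * d ≤ c) →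
    (∏ k, Lm src tgt Φ fr l (m k)) * d ≤ c := by
  intro N
  induction N using Nat.strong_induction_on with
  | _ N ih =>
  intro m hN hm H
  by_cases hs : ∀ j, J j → Antitone fun c => m c j
  · exact H m hm (fun _ => rfl) hs
  push Not at hs
  obtain ⟨j0, hj0, hna⟩ := hs
  rw [Antitone] at hna
  push Not at hna
  obtain ⟨k1, k2, hk, hlt⟩ := hna
  have hk' : k1 < k2 := lt_of_le_of_ne hk (by rintro rfl; exact lt_irrefl _ hlt)
  have hne : k1 ≠ k2 := ne_of_lt hk'
  -- split the product
  have hsplit : ∀ f : Fin K → Ideal R, ∏ k, f k = f k1 * f k2 * ∏ k ∈ (univ.erase k1).erase k2, f k := by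
    intro f
    rw [← Finset.mul_prod_erase univ f (mem_univ k1),
      ← Finset.mul_prod_erase (univ.erase k1) f (a := k2) (by simp [hne.symm]), mul_assoc]
  rw [hsplit]
  refine le_trans (Ideal.mul_mono_left (Ideal.mul_mono_left
    (pair_le src tgt Φ fr l J hJ ht (m k1) (m k2) (hm k1) (hm k2)))) ?_
  rw [Finset.sum_mul, Finset.sum_mul]
  refine sum_le_iff _ _ _ fun p hp => ?_
  rw [Fintype.mem_piFinset] at hp
  set m' : Fin K → Q → ℕ := fun k => if k = k1 then (fun i => (p i).1) else
    if k = k2 then (fun i => (p i).2) else m k with hm'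
  have e1 : m' k1 = fun i => (p i).1 := by simp [hm']
  have e2 : m' k2 = fun i => (p i).2 := by simp [hm', hne.symm]
  have e3 : ∀ k, k ≠ k1 → k ≠ k2 → m' k = m k := fun k h1 h2 => by simp [hm', h1, h2]
  have hgoal : Lm src tgt Φ fr l (fun i => (p i).1) * Lm src tgt Φ fr l (fun i => (p i).2) *
      ∏ k ∈ (univ.erase k1).erase k2, Lm src tgt Φ fr l (m k) =
      ∏ k, Lm src tgt Φ fr l (m' k) := by
    rw [hsplit, e1, e2]
    congr 1
    refine Finset.prod_congr rfl fun k hk => ?_
    rw [Finset.mem_erase, Finset.mem_erase] at hk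
    rw [e3 k hk.2.1 hk.1]
  rw [hgoal]
  -- sums
  have hsumsplit : ∀ f : Fin K → ℕ, ∑ k, f k = f k1 + f k2 + ∑ k ∈ (univ.erase k1).erase k2, f k := by
    intro f
    rw [← Finset.add_sum_erase univ f (mem_univ k1),
      ← Finset.add_sum_erase (univ.erase k1) f (a := k2) (by simp [hne.symm]), add_assoc]
  have hps : ∀ i, (p i).1 + (p i).2 = m k1 i + m k2 i := by
    intro i
    have := hp i
    rw [tset] at this
    split_ifs at this with hi
    · rw [Finset.mem_singleton] at this
      rw [this]; exact max_add_min _ _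
    · rwa [HasAntidiagonal.mem_antidiagonal] at this
  have hpJ : ∀ j, J j → p j = (max (m k1 j) (m k2 j), min (m k1 j) (m k2 j)) := by
    intro j hj
    have := hp j
    rw [tset, if_pos hj, Finset.mem_singleton] at this
    exact this
  have hsum : ∀ i, ∑ k, m' k i = ∑ k, m k i := by
    intro i
    rw [hsumsplit, hsumsplit (fun k => m k i)]
    simp only [e1, e2]
    rw [hps i]
    congr 1
    refine Finset.sum_congr rfl fun k hk => ?_
    rw [Finset.mem_erase, Finset.mem_erase] at hk
    rw [e3 k hk.2.1 hk.1]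
  by_cases hv : ∀ k i, m' k i ≤ v i
  · refine ih (meas J m') ?_ m' rfl hv fun m'' a1 a2 a3 => H m'' a1 (fun i => (a2 i).trans (hsum i)) a3
    -- the measure decreases
    rw [← hN, meas, meas, hsumsplit, hsumsplit (fun k => (k : ℕ) * ∑ j with J j, m k j)]
    have h0 : ∑ k ∈ (univ.erase k1).erase k2, (k : ℕ) * ∑ j with J j, m' k j =
        ∑ k ∈ (univ.erase k1).erase k2, (k : ℕ) * ∑ j with J j, m k j := by
      refine Finset.sum_congr rfl fun k hk => ?_
      rw [Finset.mem_erase, Finset.mem_erase] at hk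
      rw [e3 k hk.2.1 hk.1]
    rw [h0]
    have s1 : ∑ j with J j, m' k1 j = ∑ j with J j, max (m k1 j) (m k2 j) := by
      refine Finset.sum_congr rfl fun j hj => ?_
      rw [e1]
      change (p j).1 = _
      rw [hpJ j (Finset.mem_filter.1 hj).2]
    have s2 : ∑ j with J j, m' k2 j = ∑ j with J j, min (m k1 j) (m k2 j) := by
      refine Finset.sum_congr rfl fun j hj => ?_
      rw [e2]
      change (p j).2 = _
      rw [hpJ j (Finset.mem_filter.1 hj).2]
    rw [s1, s2]
    have s3 : ∑ j with J j, max (m k1 j) (m k2 j) + ∑ j with J j, min (m k1 j) (m k2 j) =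
        ∑ j with J j, m k1 j + ∑ j with J j, m k2 j := by
      rw [← Finset.sum_add_distrib, ← Finset.sum_add_distrib]
      exact Finset.sum_congr rfl fun j _ => max_add_min _ _
    have s4 : ∑ j with J j, m k1 j < ∑ j with J j, max (m k1 j) (m k2 j) := by
      refine Finset.sum_lt_sum (fun j _ => le_max_left _ _) ⟨j0, ?_, ?_⟩
      · simp [hj0]
      · exact lt_max_of_lt_right hlt
    have hkk : (k1 : ℕ) < (k2 : ℕ) := hk'
    obtain ⟨t, ht⟩ : ∃ t, (k2 : ℕ) = k1 + t + 1 := ⟨k2 - k1 - 1, by omega⟩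
    rw [ht]
    set A := ∑ j with J j, m k1 j
    set B := ∑ j with J j, m k2 j
    set A' := ∑ j with J j, max (m k1 j) (m k2 j)
    set B' := ∑ j with J j, min (m k1 j) (m k2 j)
    have s5 : B' < B := by omega
    have s6 : (k1 : ℕ) * A' + (k1 : ℕ) * B' = (k1 : ℕ) * A + (k1 : ℕ) * B := by
      rw [← mul_add, ← mul_add, s3]
    have s7 : (t + 1) * B' < (t + 1) * B := Nat.mul_lt_mul_of_pos_left s5 (Nat.succ_pos t)
    nlinarith [s6, s7]
  · push Not at hv
    obtain ⟨k, i, hki⟩ := hv
    have : ∏ k, Lm src tgt Φ fr l (m' k) = ⊥ :=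
      Finset.prod_eq_zero (mem_univ k) (Lm_eq_bot src tgt Φ fr l (m' k) i hki)
    rw [this, Ideal.bot_mul]
    exact bot_le

/-- a sorted `0/1` sequence is determined by its sum -/
lemma antitone_unique : ∀ {K : ℕ} (f g : Fin K → ℕ), Antitone f → Antitone g → (∀ k, f k ≤ 1) →
    (∀ k, g k ≤ 1) → ∑ k, f k = ∑ k, g k → f = g := by
  intro K
  induction K with
  | zero => intro f g _ _ _ _ _; exact Subsingleton.elim _ _
  | succ K ih =>
    intro f g hf hg hf1 hg1 hs
    rw [Fin.sum_univ_succ, Fin.sum_univ_succ] at hs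
    have key : ∀ (f g : Fin (K + 1) → ℕ), Antitone f → (∀ k, g k ≤ 1) →
        f 0 + ∑ k : Fin K, f k.succ = g 0 + ∑ k : Fin K, g k.succ → f 0 = 0 → g 0 = 0 := by
      intro f g hf hg1 hs h0
      have : ∑ k : Fin K, f k.succ = 0 := Finset.sum_eq_zero fun k _ => by
        have := hf (Fin.zero_le k.succ)
        omega
      omega
    have h0 : f 0 = g 0 := by
      have a1 := hf1 0
      have a2 := hg1 0
      by_cases h : f 0 = 0
      · rw [h, key f g hf hg1 hs h]
      · have h' : g 0 ≠ 0 := fun h' => h (key g f hg hf1 hs.symm h')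
        omega
    have h1 : (fun k : Fin K => f k.succ) = fun k => g k.succ := by
      refine ih _ _ (fun a b hab => hf (Fin.succ_le_succ_iff.2 hab))
        (fun a b hab => hg (Fin.succ_le_succ_iff.2 hab)) (fun k => hf1 _) (fun k => hg1 _) ?_
      omega
    funext k
    refine Fin.cases h0 (fun k => congrFun h1 k) k

/-- the star lemma -/
lemma star (hJ : ∀ i, J i → v i ≤ 1) (ht : ∀ a, J (tgt a)) (hl : ∀ a, v (tgt a) = 0 → l a = 1)
    {K : ℕ} (mE mF : Fin K → Q → ℕ) (hE : ∀ k i, mE k i ≤ v i) (hF : ∀ k i, mF k i ≤ v i)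
    (hs : ∀ i, ∑ k, mE k i = ∑ k, mF k i) (hne : ∃ i, ∑ k, mE k i ≠ 0) (I : Ideal R)
    (hI : ∀ m : Q → ℕ, (∀ i, m i ≤ v i) → m ≠ 0 →
      Lm src tgt Φ fr l m * Lm src tgt Φ 1 l (fun i => v i - m i) ≤ I) :
    (∏ k, Lm src tgt Φ fr l (mE k)) * ∏ k, Lm src tgt Φ 1 l (fun i => v i - mF k i) ≤ I := by
  refine straighten src tgt Φ fr l J hJ ht _ _ _ mE rfl hE fun m' hm' hsm' hanti => ?_
  rw [mul_comm]
  refine straighten src tgt Φ 1 l J hJ ht _ _ _ (fun k i => v i - mF k i) rfl
    (fun k i => Nat.sub_le _ _) fun m'' hm'' hsm'' hanti'' => ?_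
  -- reverse the second family
  set mG : Fin K → Q → ℕ := fun k i => v i - m'' (Fin.rev k) i with hmG
  have hprod : ∏ k, Lm src tgt Φ 1 l (m'' k) = ∏ k, Lm src tgt Φ 1 l (fun i => v i - mG k i) := by
    rw [← Equiv.prod_comp Fin.revPerm]
    refine Finset.prod_congr rfl fun k _ => ?_
    congr 1
    funext i
    have := hm'' (Fin.rev k) i
    simp only [hmG, Fin.revPerm_apply]
    omega
  have hsG : ∀ i, ∑ k, mG k i = ∑ k, m' k i := by
    intro i
    rw [hsm' i, hs i]
    have e1 : ∑ k, mG k i = ∑ k, (v i - m'' k i) := by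
      rw [← Equiv.sum_comp Fin.revPerm]
      refine Finset.sum_congr rfl fun k _ => ?_
      simp [hmG]
    have e2 : ∑ k, (v i - m'' k i) + ∑ k, m'' k i = K * v i := by
      rw [← Finset.sum_add_distrib, Finset.sum_congr rfl fun k _ => Nat.sub_add_cancel (hm'' k i)]
      simp
    have e3 : ∑ k, mF k i + ∑ k, (v i - mF k i) = K * v i := by
      rw [← Finset.sum_add_distrib, Finset.sum_congr rfl fun k _ => Nat.add_sub_cancel' (hF k i)]
      simp
    have e4 := hsm'' i
    omega
  have hGJ : ∀ j, J j → ∀ k, mG k j = m' k j := by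
    intro j hj
    have := antitone_unique (fun k => mG k j) (fun k => m' k j) ?_ (hanti j hj) ?_ ?_ (hsG j)
    · exact fun k => congrFun this k
    · intro a b hab
      simp only [hmG]
      have := hanti'' j hj (Fin.rev_le_rev.2 hab)
      simp only at this
      omega
    · intro k
      have := hJ j hj
      simp only [hmG]; omega
    · intro k
      exact (hm' k j).trans (hJ j hj)
  rw [mul_comm, hprod, ← Finset.prod_mul_distrib]
  have hle1 : ∀ (f : Fin K → Ideal R) (k0 : Fin K), ∏ k, f k ≤ f k0 := by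
    intro f k0
    rw [← Finset.mul_prod_erase univ f (mem_univ k0)]
    exact Ideal.mul_le_left
  by_cases hcase : ∀ k i, m' k i ≤ mG k i
  · -- all equal
    have heq : ∀ k i, m' k i = mG k i := by
      intro k i
      have h1 := hsG i
      by_contra hne2
      have h2 : ∑ k, m' k i < ∑ k, mG k i :=
        Finset.sum_lt_sum (fun k _ => hcase k i) ⟨k, mem_univ k, lt_of_le_of_ne (hcase k i) hne2⟩
      omega
    obtain ⟨i, hi⟩ := hne
    rw [← hsm' i] at hi
    obtain ⟨k0, -, hk0⟩ := Finset.exists_ne_zero_of_sum_ne_zero hi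
    refine (hle1 _ k0).trans ?_
    have h3 : (fun i => v i - mG k0 i) = fun i => v i - m' k0 i := by
      funext i; rw [heq]
    rw [h3]
    exact hI (m' k0) (hm' k0) fun h => hk0 (congrFun h i)
  · push Not at hcase
    obtain ⟨k, i, hki⟩ := hcase
    have hiJ : ¬ J i := fun h => by rw [hGJ i h k] at hki; exact lt_irrefl _ hki
    refine (hle1 _ k).trans ?_
    -- the ideal of the vertex `i`
    have hP : detIdeal (Φ i (fr i * ∏ a with src a = i, l a)) 1 ≤ I := by
      have h4 := hI (fun j => if j = i then 1 else 0) (fun j => by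
        by_cases h : j = i
        · subst h
          simp only [if_true]
          have := hm' k j
          omega
        · simp [h]) (fun h => by simpa using congrFun h i)
      refine le_trans ?_ h4
      have h5 : Lm src tgt Φ fr l (fun j => if j = i then 1 else 0) =
          detIdeal (Φ i (fr i * ∏ a with src a = i, l a)) 1 := by
        rw [Lm, ← Finset.mul_prod_erase univ _ (mem_univ i)]
        have h6 : ∏ x ∈ univ.erase i, detIdeal (Φ x (gpol src tgt fr l x fun j => if j = i then 1 else 0))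
            (if x = i then 1 else 0) = 1 := by
          refine Finset.prod_eq_one fun x hx => ?_
          rw [if_neg (Finset.ne_of_mem_erase hx), detIdeal_zero, Ideal.one_eq_top]
        rw [h6, mul_one, if_pos rfl]
        congr 2
        rw [gpol]
        congr 1
        refine Finset.prod_congr ?_ fun _ _ => rfl
        ext a
        simp only [Finset.mem_filter, Finset.mem_univ, true_and, and_iff_left_iff_imp]
        intro _
        rw [if_neg]
        rintro h
        exact hiJ (h ▸ ht a)
      have h7 : Lm src tgt Φ 1 l (fun j => v j - if j = i then 1 else 0) = ⊤ := by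
        rw [Lm, ← Ideal.one_eq_top]
        refine Finset.prod_eq_one fun x _ => ?_
        have h8 : gpol src tgt 1 l x (fun j => v j - if j = i then 1 else 0) = 1 := by
          rw [gpol, Pi.one_apply, one_mul]
          refine Finset.prod_eq_one fun a ha => ?_
          rw [Finset.mem_filter] at ha
          apply hl
          have h9 := ha.2.2
          rw [if_neg (fun h : tgt a = i => hiJ (h ▸ ht a))] at h9
          simpa using h9
        rw [h8, map_one, detIdeal_one (by rw [Fintype.card_fin]; exact Nat.sub_le _ _),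
          Ideal.one_eq_top]
      rw [h5, h7, Ideal.mul_top]
    refine le_trans ?_ hP
    -- use Sylvester at the vertex `i`
    have h10 : Lm src tgt Φ fr l (m' k) * Lm src tgt Φ 1 l (fun i => v i - mG k i) ≤
        detIdeal (Φ i (gpol src tgt fr l i (m' k))) (m' k i) *
        detIdeal (Φ i (gpol src tgt 1 l i (fun i => v i - mG k i))) (v i - mG k i) := by
      refine Ideal.mul_mono ?_ ?_
      · rw [Lm, ← Finset.mul_prod_erase univ _ (mem_univ i)]
        exact Ideal.mul_le_left
      · rw [Lm, ← Finset.mul_prod_erase univ _ (mem_univ i)]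
        exact Ideal.mul_le_left
    refine h10.trans ((sylvester _ _ _ _ ?_).trans (le_of_eq ?_))
    · rw [Fintype.card_fin]
      have h11 : mG k i ≤ v i := by simp only [hmG]; omega
      omega
    · rw [← map_mul]
      congr 2
      rw [gpol, gpol, Pi.one_apply, one_mul, mul_assoc]
      congr 1
      rw [Finset.prod_filter, Finset.prod_filter, Finset.prod_filter, ← Finset.prod_mul_distrib]
      refine Finset.prod_congr rfl fun a _ => ?_
      by_cases h12 : src a = i
      · have h13 := hGJ (tgt a) (ht a) k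
        have h14 := hJ (tgt a) (ht a)
        have h15 := hm' k (tgt a)
        rcases Nat.eq_zero_or_pos (v (tgt a)) with h16 | h16
        · rw [hl a h16]; simp
        · by_cases h17 : m' k (tgt a) = 0
          · have h18 : ¬ (v (tgt a) - mG k (tgt a) = 0) := by omega
            simp [h12, h17, h18]
          · have h18 : (v (tgt a) - mG k (tgt a) = 0) := by omega
            simp [h12, h17, h18]
      · simp [h12]

end

end Vale.Agent.P291.GChain
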