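import Mathlib
import Vale.Agent.P291.T.QD

set_option autoImplicit false

namespace Vale.Agent.P291.G

open MvPolynomial

export Vale.Agent.P291.T (QData B W)

/-- it permutes the basis vectors -/
def perm (D : QData) (σ : W D) : Equiv.Perm (B D) := Equiv.sigmaCongrRight σ

/-- polynomials in the variables `x b` (basis vectors) and `y j` (coordinates on `Lie F`) -/
abbrev P (D : QData) : Type := MvPolynomial (B D ⊕ Fin D.rk) ℂ

section

variable (D : QData) {K L : Type} [Field K] [Algebra ℂ K] [CommRing L] [Algebra K L]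
  (x : B D → K) (y : Fin D.rk → K) (u : (B D → ℤ) → L)

/-- the linear form on the Lie algebra of `F` given by a character -/
def lin {C : Type} [CommRing C] {rk : ℕ} (y : Fin rk → C) (m : Fin rk → ℤ) : C := ∑ j, m j * y j

/-- Value at `x, y` of `∏ χ ^ max(0, -⟨χ, l⟩)` over the weights `χ` of
`N = ⊕ Hom(V (src a), V (tgt a)) ⊕ ⊕ Hom(V i, W i)`. -/
def eul {C : Type} [CommRing C] (x : B D → C) (y : Fin D.rk → C) (l : B D → ℤ) : C :=
  (∏ a, ∏ r, ∏ s, (x ⟨D.tgt a, s⟩ - x ⟨D.src a, r⟩ + lin y (D.ta a)) ^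
      (l ⟨D.src a, r⟩ - l ⟨D.tgt a, s⟩).toNat) *
    ∏ i, ∏ r, ∏ k, (lin y (D.tw i k) - x ⟨i, r⟩) ^ (l ⟨i, r⟩).toNat

/-- Value of `∏ α ^ max(0, ⟨α, l⟩)` over the roots of `G`. -/
def rts {C : Type} [CommRing C] (x : B D → C) (l : B D → ℤ) : C :=
  ∏ i, ∏ r, ∏ s, (x ⟨i, r⟩ - x ⟨i, s⟩) ^ (l ⟨i, r⟩ - l ⟨i, s⟩).toNat

/-- value of a polynomial -/
noncomputable def pol (f : P D) : K := aeval (Sum.elim x y) f

/-- coefficient of a dressed monopole operator -/
noncomputable def co (l : B D → ℤ) (f : P D) : K := pol D x y f * eul D x y l / rts D x l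

/-- dressed monopole operator `∑_{σ ∈ W} σ (f · eul l / rts l · u^l)` -/
noncomputable def mono (l : B D → ℤ) (f : P D) : L :=
  ∑ σ : W D, co D (x ∘ perm D σ) y l f • u (l ∘ (perm D σ).symm)

/-- its value at `u = 1` -/
noncomputable def cls (l : B D → ℤ) (f : P D) : K := ∑ σ : W D, co D (x ∘ perm D σ) y l f

/-- `R = H_{G × F}(pt)`: polynomials in `x, y` which are symmetric in each group of variables -/
def R : Set K := {z | ∃ f, ∀ σ, pol D (x ∘ perm D σ) y f = z}

/-- `0/1`-valued cocharacters -/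
def Min (l : B D → ℤ) : Prop := ∀ b, l b = 0 ∨ l b = 1

/-- the flavor-deformed Coulomb branch algebra in its abelianized description -/
noncomputable def coulomb : Subring L :=
  Subring.closure {a | (∃ r ∈ R D x y, a = algebraMap K L r) ∨
    ∃ l f, Min D l ∧ (a = mono D x y u l f ∨ a = mono D x y u (-l) f)}

/-- `ν`-weight of a cocharacter -/
def wt (ν : D.I → ℤ) (l : B D → ℤ) : ℤ := ∑ b : B D, ν b.1 * l b

/-- the ideal of `A_F` generated by the elements of nonzero weight -/
noncomputable def fixI (ν : D.I → ℤ) : AddSubgroup L :=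
  AddSubgroup.closure {c | ∃ a ∈ coulomb D x y u, ∃ b ∈ coulomb D x y u, ∃ m, m ≠ 0 ∧
    b ∈ Submodule.span K (u '' {l | wt D ν l = m}) ∧ c = a * b}

/-- the ideal of `R` generated by the products of classes of opposite charges -/
noncomputable def Kdec : AddSubgroup K :=
  AddSubgroup.closure {z | ∃ l f g, Min D l ∧ l ≠ 0 ∧ z = cls D x y l f * cls D x y (-l) g}

end

end Vale.Agent.P291.G
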