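import Mathlib

set_option autoImplicit false
set_option linter.unusedSectionVars false
set_option linter.unusedSimpArgs false

/-! Determinantal ideals `I_k(M)`, the ideal-theoretic Frobenius inequality and the block identity. -/

namespace Vale.Agent.P291.GDet

open Finset Matrix

section
variable {n : Type} [Fintype n] [DecidableEq n] {R : Type*} [CommRing R]

/-- The matrix with columns in `T` taken from `A` and the others from `B`. -/
def mixCols (T : Finset n) (A B : Matrix n n R) : Matrix n n R :=
  Matrix.of fun r c => if c ∈ T then A r c else B r c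

lemma mixCols_apply (T : Finset n) (A B : Matrix n n R) (r c : n) :
    mixCols T A B r c = if c ∈ T then A r c else B r c := rfl

/-- The ideal generated by the determinants with `k` columns in the image of `M`. -/
def detIdeal (M : Matrix n n R) (k : ℕ) : Ideal R :=
  Ideal.span {x | ∃ (T : Finset n) (X : Matrix n n R), T.card = k ∧ x = (mixCols T (M * X) X).det}

lemma mem_detIdeal (M : Matrix n n R) (T : Finset n) (X Y : Matrix n n R) {k : ℕ}
    (hk : T.card = k) : (mixCols T (M * X) Y).det ∈ detIdeal M k := by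
  refine Ideal.subset_span ⟨T, mixCols T X Y, hk, ?_⟩
  congr 1
  ext r c
  simp only [mixCols_apply, Matrix.mul_apply]
  split_ifs with h
  · rfl
  · rfl

lemma detIdeal_le {M : Matrix n n R} {k : ℕ} {I : Ideal R}
    (h : ∀ (T : Finset n) (X : Matrix n n R), T.card = k → (mixCols T (M * X) X).det ∈ I) :
    detIdeal M k ≤ I := by
  refine Ideal.span_le.2 ?_
  rintro _ ⟨T, X, hT, rfl⟩
  exact h T X hT

lemma detIdeal_zero (M : Matrix n n R) : detIdeal M 0 = ⊤ := by
  rw [Ideal.eq_top_iff_one]
  have h := mem_detIdeal M ∅ 1 1 (k := 0) rfl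
  have e : mixCols ∅ (M * 1) (1 : Matrix n n R) = 1 := by
    ext r c; simp [mixCols_apply]
  rwa [e, det_one] at h

lemma detIdeal_one {k : ℕ} (hk : k ≤ Fintype.card n) : detIdeal (1 : Matrix n n R) k = ⊤ := by
  rw [Ideal.eq_top_iff_one]
  obtain ⟨T, -, hT⟩ := Finset.exists_subset_card_eq (s := (univ : Finset n)) (n := k)
    (by simpa using hk)
  have h := mem_detIdeal (1 : Matrix n n R) T 1 1 hT
  have e : mixCols T ((1 : Matrix n n R) * 1) (1 : Matrix n n R) = 1 := by
    ext r c; simp [mixCols_apply]
  rwa [e, det_one] at h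

lemma detIdeal_eq_bot (M : Matrix n n R) {k : ℕ} (hk : Fintype.card n < k) :
    detIdeal M k = ⊥ := by
  rw [eq_bot_iff]
  refine detIdeal_le fun T X hT => ?_
  exact absurd (card_le_univ T) (by omega)

lemma detIdeal_succ_le (M : Matrix n n R) (k : ℕ) : detIdeal M (k + 1) ≤ detIdeal M k := by
  refine detIdeal_le fun T X hT => ?_
  obtain ⟨c0, hc0⟩ : T.Nonempty := by rw [← card_pos]; omega
  have h := mem_detIdeal M (T.erase c0) X (mixCols T (M * X) X) (k := k)
    (by rw [card_erase_of_mem hc0]; omega)
  have e : mixCols (T.erase c0) (M * X) (mixCols T (M * X) X) = mixCols T (M * X) X := by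
    ext r c
    simp only [mixCols_apply, mem_erase]
    by_cases h1 : c ∈ T <;> simp [h1]
  rwa [e] at h

lemma detIdeal_anti (M : Matrix n n R) {k l : ℕ} (h : k ≤ l) : detIdeal M l ≤ detIdeal M k := by
  induction h with
  | refl => exact le_rfl
  | step _ ih => exact (detIdeal_succ_le M _).trans ih

lemma detIdeal_mul_le (M N : Matrix n n R) (k : ℕ) : detIdeal (M * N) k ≤ detIdeal M k := by
  refine detIdeal_le fun T X hT => ?_
  rw [Matrix.mul_assoc]
  exact mem_detIdeal M T (N * X) X hT

lemma detIdeal_conj (U M N : Matrix n n R) (hU : IsUnit U.det) (k : ℕ) :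
    detIdeal (U * M * N) k ≤ detIdeal M k := by
  refine detIdeal_le fun T X hT => ?_
  have e : mixCols T (U * M * N * X) X = U * mixCols T (M * (N * X)) (U⁻¹ * X) := by
    ext r c
    by_cases h : c ∈ T
    · have : (U * mixCols T (M * (N * X)) (U⁻¹ * X)) r c = (U * (M * (N * X))) r c := by
        simp only [Matrix.mul_apply, mixCols_apply, if_pos h]
      rw [this, mixCols_apply, if_pos h]
      simp only [Matrix.mul_assoc]
    · have : (U * mixCols T (M * (N * X)) (U⁻¹ * X)) r c = (U * (U⁻¹ * X)) r c := by
        rw [Matrix.mul_apply, Matrix.mul_apply]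
        refine Finset.sum_congr rfl fun j _ => ?_
        rw [mixCols_apply, if_neg h]
      rw [this, mixCols_apply, if_neg h, ← Matrix.mul_assoc, Matrix.mul_nonsing_inv U hU,
        Matrix.one_mul]
  rw [e, det_mul]
  exact Ideal.mul_mem_left _ _ (mem_detIdeal M T _ _ hT)

/-- top/bottom selection of columns -/
lemma det_topBottom (s : Finset (n ⊕ n)) (P : Matrix (n ⊕ n) (n ⊕ n) R) (hs : ∀ c ∈ s, ∀ r : n, P (Sum.inr r) c = 0)
    (hs' : ∀ c ∉ s, ∀ r : n, P (Sum.inl r) c = 0) :
    P.det = 0 ∨ ∃ σ : Equiv.Perm (n ⊕ n), (∀ c, σ (Sum.inl c) ∈ s) ∧ (∀ c, σ (Sum.inr c) ∉ s) := by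
  by_cases h : ∃ σ : Equiv.Perm (n ⊕ n), (∀ c, σ (Sum.inl c) ∈ s) ∧ (∀ c, σ (Sum.inr c) ∉ s)
  · exact Or.inr h
  · left
    rw [det_apply']
    refine Finset.sum_eq_zero fun σ _ => ?_
    suffices h2 : ∃ c, P (σ c) c = 0 by
      obtain ⟨c, hc⟩ := h2
      exact mul_eq_zero_of_right _ (Finset.prod_eq_zero (mem_univ c) hc)
    by_contra h3
    push Not at h3
    apply h
    refine ⟨σ.symm, fun c => ?_, fun c => ?_⟩
    · by_contra h4
      apply h3 (σ.symm (Sum.inl c))
      rw [Equiv.apply_symm_apply]
      exact hs' _ h4 c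
    · intro h4
      apply h3 (σ.symm (Sum.inr c))
      rw [Equiv.apply_symm_apply]
      exact hs _ h4 c

lemma detIdeal_blockDiag (A B : Matrix n n R) (k : ℕ) :
    detIdeal (fromBlocks A 0 0 B) k ≤
      ∑ p ∈ antidiagonal k, detIdeal A p.1 * detIdeal B p.2 := by
  refine detIdeal_le fun T X hT => ?_
  set M := mixCols T (fromBlocks A 0 0 B * X) X with hM
  -- split rows
  let P : Matrix (n ⊕ n) (n ⊕ n) R := Matrix.of fun r c => Sum.elim (fun _ => M r c) (fun _ => 0) r
  let Q : Matrix (n ⊕ n) (n ⊕ n) R := Matrix.of fun r c => Sum.elim (fun _ => 0) (fun _ => M r c) r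
  have hPQ : M.det = ∑ s : Finset (n ⊕ n), (mixCols s P Q).det := by
    have h1 : M = Mᵀᵀ := rfl
    rw [h1, det_transpose]
    have h2 : Mᵀ = fun c => Pᵀ c + Qᵀ c := by
      ext c r
      cases r <;> simp [P, Q, Matrix.transpose_apply]
    rw [h2]
    have := (detRowAlternating (n := n ⊕ n) (R := R)).toMultilinearMap.map_add_univ Pᵀ Qᵀ
    simp only [AlternatingMap.coe_multilinearMap] at this
    refine Eq.trans this ?_
    refine Finset.sum_congr rfl fun s _ => ?_
    rw [← det_transpose (mixCols s P Q)]
    change Matrix.det _ = _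
    congr 1
    ext c r
    simp only [Finset.piecewise, Matrix.transpose_apply, mixCols_apply]
    split_ifs <;> rfl
  rw [hPQ]
  refine Ideal.sum_mem _ fun s _ => ?_
  rcases det_topBottom s (mixCols s P Q) (fun c hc r => by simp [mixCols_apply, hc, P])
    (fun c hc r => by simp [mixCols_apply, hc, Q]) with h0 | ⟨σ, hσ1, hσ2⟩
  · rw [h0]; exact Ideal.zero_mem _
  · -- permute columns
    have h3 : ((mixCols s P Q).submatrix id σ).det = Equiv.Perm.sign σ * (mixCols s P Q).det :=
      det_permute' σ _
    have h4 : (mixCols s P Q).det = Equiv.Perm.sign σ * ((mixCols s P Q).submatrix id σ).det := by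
      rw [h3, ← mul_assoc, ← Int.cast_mul, ← Units.val_mul]
      have : (Equiv.Perm.sign σ * Equiv.Perm.sign σ) = 1 := Int.units_mul_self _
      rw [this]; simp
    rw [h4]
    refine Ideal.mul_mem_left _ _ ?_
    -- identify blocks
    let T1 : Finset n := univ.filter fun c => σ (Sum.inl c) ∈ T
    let T2 : Finset n := univ.filter fun c => σ (Sum.inr c) ∈ T
    let X1 : Matrix n n R := Matrix.of fun r c => X (Sum.inl r) (σ (Sum.inl c))
    let X2 : Matrix n n R := Matrix.of fun r c => X (Sum.inr r) (σ (Sum.inr c))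
    have h5 : (mixCols s P Q).submatrix id σ =
        fromBlocks (mixCols T1 (A * X1) X1) 0 0 (mixCols T2 (B * X2) X2) := by
      ext r c
      cases c with
      | inl c =>
        cases r with
        | inl r =>
          simp only [submatrix_apply, id, mixCols_apply, hσ1 c, if_true, P, Matrix.of_apply,
            Sum.elim_inl, fromBlocks_apply₁₁, hM, T1, Finset.mem_filter, Finset.mem_univ, true_and,
            X1]
          split_ifs
          · simp [Matrix.mul_apply, Fintype.sum_sum_type, X1]
          · rfl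
        | inr r =>
          simp [mixCols_apply, hσ1 c, P]
      | inr c =>
        cases r with
        | inl r =>
          simp [mixCols_apply, hσ2 c, Q]
        | inr r =>
          simp only [submatrix_apply, id, mixCols_apply, hσ2 c, if_false, Q, Matrix.of_apply,
            Sum.elim_inr, fromBlocks_apply₂₂, hM, T2, Finset.mem_filter, Finset.mem_univ, true_and,
            X2]
          split_ifs
          · simp [Matrix.mul_apply, Fintype.sum_sum_type, X2]
          · rfl
    rw [h5, det_fromBlocks_zero₂₁]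
    have hcard : (T1.card, T2.card) ∈ antidiagonal k := by
      rw [HasAntidiagonal.mem_antidiagonal]
      simp only
      rw [← hT]
      have e1 : T.card = (T.map σ.symm.toEmbedding).card := (card_map _).symm
      rw [e1, ← card_disjSum]
      congr 1
      ext x
      cases x with
      | inl x => simp [T1, Finset.mem_map_equiv]
      | inr x => simp [T2, Finset.mem_map_equiv]
    have h6 : detIdeal A T1.card * detIdeal B T2.card ≤
        ∑ p ∈ antidiagonal k, detIdeal A p.1 * detIdeal B p.2 := by
      have := Finset.single_le_sum (f := fun p : ℕ × ℕ => detIdeal A p.1 * detIdeal B p.2)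
        (fun p _ => bot_le) hcard
      exact this
    exact h6 (Ideal.mul_mem_mul (mem_detIdeal A T1 X1 X1 rfl) (mem_detIdeal B T2 X2 X2 rfl))

lemma det_fromBlocks_zero₁₁' (B C D : Matrix n n R) :
    ∃ ε : R, (ε = 1 ∨ ε = -1) ∧ (fromBlocks 0 B C D).det = ε * (B.det * C.det) := by
  have h : (fromBlocks 0 B C D).submatrix id (Equiv.sumComm n n) = fromBlocks B 0 D C := by
    ext r c
    cases r <;> cases c <;> rfl
  have h1 := det_permute' (Equiv.sumComm n n : Equiv.Perm (n ⊕ n)) (fromBlocks 0 B C D)
  rw [h, det_fromBlocks_zero₁₂] at h1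
  rcases Int.units_eq_one_or (Equiv.Perm.sign (Equiv.sumComm n n : Equiv.Perm (n ⊕ n))) with h2 | h2
  · rw [h2] at h1
    exact ⟨1, Or.inl rfl, by rw [h1]; simp⟩
  · rw [h2] at h1
    exact ⟨-1, Or.inr rfl, by rw [h1]; simp⟩

/-- ideal-theoretic Frobenius inequality -/
lemma frobenius (X Y Z : Matrix n n R) (a b : ℕ) :
    detIdeal (Y * X) a * detIdeal (X * Z) b ≤
      ∑ p ∈ antidiagonal (a + b), detIdeal X p.1 * detIdeal (Y * X * Z) p.2 := by
  -- the block matrix
  let W : Matrix (n ⊕ n) (n ⊕ n) R := fromBlocks X 0 0 (Y * X * Z)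
  let W' : Matrix (n ⊕ n) (n ⊕ n) R := fromBlocks X (-(X * Z)) (Y * X) 0
  have hW : W' = fromBlocks 1 0 Y 1 * W * fromBlocks 1 (-Z) 0 1 := by
    simp only [W, W', fromBlocks_multiply]
    simp [Matrix.mul_assoc]
  have hle : detIdeal W' (a + b) ≤ ∑ p ∈ antidiagonal (a + b), detIdeal X p.1 * detIdeal (Y * X * Z) p.2 := by
    rw [hW]
    refine (detIdeal_conj _ _ _ ?_ _).trans (detIdeal_blockDiag _ _ _)
    rw [det_fromBlocks_zero₁₂, det_one, mul_one]
    exact isUnit_one
  refine le_trans ?_ hle
  rw [Ideal.mul_le]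
  intro x hx y hy
  -- reduce to generators
  have key : ∀ (S T : Finset n) (U V : Matrix n n R), S.card = a → T.card = b →
      (mixCols S (Y * X * U) U).det * (mixCols T (X * Z * V) V).det ∈ detIdeal W' (a + b) := by
    intro S T U V hS hT
    let TT : Finset (n ⊕ n) := S.disjSum T
    have hTT : TT.card = a + b := by rw [card_disjSum, hS, hT]
    have h1 := mem_detIdeal W' TT (fromBlocks U 0 0 (-V)) (fromBlocks 0 V U 0) hTT
    have h2 : mixCols TT (W' * fromBlocks U 0 0 (-V)) (fromBlocks 0 V U 0) =
        fromBlocks (mixCols S (X * U) 0) (mixCols T (X * Z * V) V) (mixCols S (Y * X * U) U) 0 := by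
      simp only [W', fromBlocks_multiply]
      ext r c
      cases c with
      | inl c =>
        cases r with
        | inl r =>
          by_cases h : c ∈ S <;> simp [mixCols_apply, TT, h]
        | inr r =>
          by_cases h : c ∈ S <;> simp [mixCols_apply, TT, h]
      | inr c =>
        cases r with
        | inl r =>
          by_cases h : c ∈ T <;> simp [mixCols_apply, TT, h]
        | inr r =>
          by_cases h : c ∈ T <;> simp [mixCols_apply, TT, h]
    rw [h2] at h1
    have h3 : (fromBlocks (mixCols S (X * U) 0) (mixCols T (X * Z * V) V) (mixCols S (Y * X * U) U)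
        0).submatrix (Equiv.sumComm n n) (Equiv.sumComm n n) =
        fromBlocks 0 (mixCols S (Y * X * U) U) (mixCols T (X * Z * V) V) (mixCols S (X * U) 0) := by
      ext r c
      cases r <;> cases c <;> rfl
    rw [← det_submatrix_equiv_self (Equiv.sumComm n n), h3] at h1
    obtain ⟨ε, hε, h4⟩ := det_fromBlocks_zero₁₁' (mixCols S (Y * X * U) U) (mixCols T (X * Z * V) V)
      (mixCols S (X * U) 0)
    rw [h4] at h1
    rcases hε with rfl | rfl
    · simpa using h1
    · simpa using h1
  refine Submodule.span_induction (p := fun x _ => x * y ∈ detIdeal W' (a + b)) ?_ ?_ ?_ ?_ hx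
  · rintro _ ⟨S, U, hS, rfl⟩
    refine Submodule.span_induction
      (p := fun y _ => (mixCols S (Y * X * U) U).det * y ∈ detIdeal W' (a + b)) ?_ ?_ ?_ ?_ hy
    · rintro _ ⟨T, V, hT, rfl⟩
      exact key S T U V hS hT
    · simp
    · intro u v _ _ hu hv
      rw [mul_add]; exact Ideal.add_mem _ hu hv
    · intro u v _ hv
      rw [smul_eq_mul, mul_left_comm]; exact Ideal.mul_mem_left _ _ hv
  · simp
  · intro u v _ _ hu hv
    rw [add_mul]; exact Ideal.add_mem _ hu hv
  · intro u v _ hv
    rw [smul_eq_mul, mul_assoc]; exact Ideal.mul_mem_left _ _ hv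

/-- ideal-theoretic Sylvester inequality -/
lemma sylvester (Y Z : Matrix n n R) (a b : ℕ) (h : Fintype.card n < a + b) :
    detIdeal Y a * detIdeal Z b ≤ detIdeal (Y * Z) 1 := by
  have h1 := frobenius (1 : Matrix n n R) Y Z a b
  rw [Matrix.mul_one, Matrix.one_mul] at h1
  refine h1.trans ?_
  rw [Ideal.sum_eq_sup]
  refine Finset.sup_le fun p hp => ?_
  rw [HasAntidiagonal.mem_antidiagonal] at hp
  by_cases h2 : Fintype.card n < p.1
  · rw [detIdeal_eq_bot _ h2, Ideal.bot_mul]; exact bot_le
  · have h3 : detIdeal (Y * Z) p.2 ≤ detIdeal (Y * Z) 1 := detIdeal_anti (Y * Z) (by omega)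
    exact le_trans Ideal.mul_le_right h3

end

section
variable {n : Type} [Fintype n] [DecidableEq n] {A L : Type*} [CommRing A] [CommRing L]

lemma map_mixCols (ι : A →+* L) (T : Finset n) (U V : Matrix n n A) :
    (mixCols T U V).map ι = mixCols T (U.map ι) (V.map ι) := by
  ext r c
  simp only [Matrix.map_apply, mixCols_apply]
  split_ifs <;> rfl

lemma det_mixCols_neg (T : Finset n) (U V : Matrix n n A) :
    (mixCols T (-U) V).det = (-1) ^ T.card * (mixCols T U V).det := by
  have h : mixCols T (-U) V = mixCols T U V * diagonal (fun c => if c ∈ T then (-1 : A) else 1) := by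
    ext r c
    rw [mul_diagonal, mixCols_apply, mixCols_apply]
    split_ifs <;> simp
  rw [h, det_mul, det_diagonal, mul_comm]
  congr 1
  rw [Finset.prod_ite]
  simp

/-- block identity: with `Mb'` a matrix over the big ring such that `Mb' Mc = Mq`, `Mb' Mp = Mb`,
and `Mb, Mc` with entries in an ideal `J` of the small ring, the product of the two mixed
determinants lies in the small ring and is computed, up to sign, modulo `J`. -/
lemma block_identity (ι : A →+* L) (J : Ideal A) (S : Finset n)
    (Mb Mc Mp Mq V V' : Matrix n n A) (Mb' : Matrix n n L)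
    (hb : ∀ r c, Mb r c ∈ J) (hc : ∀ r c, Mc r c ∈ J)
    (h1 : Mb' * Mc.map ι = Mq.map ι) (h2 : Mb' * Mp.map ι = Mb.map ι) :
    ∃ z ε : A, ε * ε = 1 ∧ ι z = (mixCols S (Mb' * V'.map ι) (V'.map ι)).det *
        (mixCols S ((Mc * V).map ι) ((Mp * V).map ι)).det ∧
      z - ε * ((mixCols S (Mq * V) V').det * (mixCols S V' (Mp * V)).det) ∈ J := by
  let MM : Matrix (n ⊕ n) (n ⊕ n) A := fromBlocks (mixCols S (Mc * V) (Mp * V)) (mixCols S V' 0)
    (mixCols S (Mq * V) (Mb * V)) (mixCols S 0 V')
  let M0 : Matrix (n ⊕ n) (n ⊕ n) A := fromBlocks (mixCols S 0 (Mp * V)) (mixCols S V' 0)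
    (mixCols S (Mq * V) 0) (mixCols S 0 V')
  have hmod : MM.det - M0.det ∈ J := by
    rw [← Ideal.Quotient.eq, RingHom.map_det, RingHom.map_det]
    congr 1
    have hbV : ∀ (M : Matrix n n A), (∀ r c, M r c ∈ J) → ∀ r c, (M * V) r c ∈ J := by
      intro M hM r c
      rw [Matrix.mul_apply]
      exact Ideal.sum_mem _ fun k _ => Ideal.mul_mem_right _ _ (hM r k)
    ext r c
    simp only [RingHom.mapMatrix_apply, Matrix.map_apply]
    cases r with
    | inl r =>
      cases c with
      | inl c =>
        simp only [MM, M0, fromBlocks_apply₁₁, mixCols_apply]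
        split_ifs
        · rw [Ideal.Quotient.eq]; simpa using hbV Mc hc r c
        · rfl
      | inr c => rfl
    | inr r =>
      cases c with
      | inl c =>
        simp only [MM, M0, fromBlocks_apply₂₁, mixCols_apply]
        split_ifs
        · rfl
        · rw [Ideal.Quotient.eq]; simpa using hbV Mb hb r c
      | inr c => rfl
  -- the permutation swapping the columns in `S`
  have hM0 : ∃ ε : A, ε * ε = 1 ∧
      M0.det = ε * ((mixCols S (Mq * V) V').det * (mixCols S V' (Mp * V)).det) := by
    let τ : Equiv.Perm (n ⊕ n) := Function.Involutive.toPerm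
      (fun x : n ⊕ n => Sum.elim (fun c => if c ∈ S then Sum.inr c else Sum.inl c)
        (fun c => if c ∈ S then Sum.inl c else Sum.inr c) x) (by
        intro x
        cases x with
        | inl c => by_cases h : c ∈ S <;> simp [h]
        | inr c => by_cases h : c ∈ S <;> simp [h])
    have hτ1 : ∀ c, τ (Sum.inl c) = if c ∈ S then Sum.inr c else Sum.inl c := fun c => rfl
    have hτ2 : ∀ c, τ (Sum.inr c) = if c ∈ S then Sum.inl c else Sum.inr c := fun c => rfl
    have e1 : M0.submatrix id τ = fromBlocks (mixCols S V' (Mp * V)) 0 0 (mixCols S (Mq * V) V') := by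
      ext r c
      rw [submatrix_apply]
      cases c with
      | inl c =>
        rw [hτ1]
        cases r with
        | inl r => by_cases h : c ∈ S <;> simp [mixCols_apply, h, M0]
        | inr r => by_cases h : c ∈ S <;> simp [mixCols_apply, h, M0]
      | inr c =>
        rw [hτ2]
        cases r with
        | inl r => by_cases h : c ∈ S <;> simp [mixCols_apply, h, M0]
        | inr r => by_cases h : c ∈ S <;> simp [mixCols_apply, h, M0]
    have e2 := det_permute' τ M0
    rw [e1, det_fromBlocks_zero₂₁] at e2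
    rcases Int.units_eq_one_or (Equiv.Perm.sign τ) with h | h
    · refine ⟨1, by ring, ?_⟩
      rw [h] at e2
      simp only [Units.val_one, Int.cast_one, one_mul] at e2
      rw [← e2]; ring
    · refine ⟨-1, by ring, ?_⟩
      rw [h] at e2
      simp only [Units.val_neg, Units.val_one, Int.cast_neg, Int.cast_one] at e2
      linear_combination e2
  have hMM : ι MM.det = (-1) ^ S.card * ((mixCols S (Mb' * V'.map ι) (V'.map ι)).det *
        (mixCols S ((Mc * V).map ι) ((Mp * V).map ι)).det) := by
    have e1 : MM.map ι = fromBlocks 1 0 Mb' 1 *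
        fromBlocks (mixCols S ((Mc * V).map ι) ((Mp * V).map ι)) (mixCols S (V'.map ι) 0) 0
          (mixCols S (-(Mb' * V'.map ι)) (V'.map ι)) := by
      rw [fromBlocks_multiply]
      simp only [MM, fromBlocks_map, map_mixCols, Matrix.one_mul, Matrix.zero_mul, add_zero,
        Matrix.mul_zero]
      congr 1
      · ext r c
        by_cases h : c ∈ S <;> simp [mixCols_apply, h]
      · ext r c
        by_cases h : c ∈ S
        · have e3 : (Mb' * mixCols S ((Mc * V).map ι) ((Mp * V).map ι)) r c =
              (Mb' * (Mc * V).map ι) r c := by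
            simp only [Matrix.mul_apply, mixCols_apply, if_pos h]
          rw [e3, mixCols_apply, if_pos h, Matrix.map_mul, Matrix.map_mul, ← Matrix.mul_assoc, h1]
        · have e3 : (Mb' * mixCols S ((Mc * V).map ι) ((Mp * V).map ι)) r c =
              (Mb' * (Mp * V).map ι) r c := by
            rw [Matrix.mul_apply, Matrix.mul_apply]
            refine Finset.sum_congr rfl fun j _ => ?_
            rw [mixCols_apply, if_neg h]
          rw [e3, mixCols_apply, if_neg h, Matrix.map_mul, Matrix.map_mul, ← Matrix.mul_assoc, h2]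
      · ext r c
        rw [Matrix.add_apply]
        by_cases h : c ∈ S
        · have e3 : (Mb' * mixCols S (V'.map ι) 0) r c = (Mb' * V'.map ι) r c := by
            simp only [Matrix.mul_apply, mixCols_apply, if_pos h]
          rw [e3]
          simp [mixCols_apply, h]
        · have e3 : (Mb' * mixCols S (V'.map ι) 0) r c = 0 := by
            rw [Matrix.mul_apply]
            refine Finset.sum_eq_zero fun j _ => ?_
            rw [mixCols_apply, if_neg h]; simp
          rw [e3]
          simp [mixCols_apply, h]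
    have e2 : ι MM.det = (MM.map ι).det := by
      rw [RingHom.map_det, RingHom.mapMatrix_apply]
    rw [e2, e1, det_mul, det_fromBlocks_zero₁₂, det_fromBlocks_zero₂₁, det_one,
      det_mixCols_neg]
    ring
  obtain ⟨ε, hε, hM0⟩ := hM0
  refine ⟨(-1) ^ S.card * MM.det, (-1) ^ S.card * ε, ?_, ?_, ?_⟩
  · calc (-1) ^ S.card * ε * ((-1) ^ S.card * ε) = ((-1) * (-1)) ^ S.card * (ε * ε) := by
          rw [mul_pow]; ring
      _ = 1 := by rw [hε]; simp
  · have h3 : ((-1 : L)) ^ S.card * (-1) ^ S.card = 1 := by rw [← mul_pow]; simp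
    rw [map_mul, hMM, map_pow, map_neg, map_one, ← mul_assoc, h3, one_mul]
  · have h4 : (-1) ^ S.card * MM.det - (-1) ^ S.card * ε *
        ((mixCols S (Mq * V) V').det * (mixCols S V' (Mp * V)).det) =
        (-1) ^ S.card * (MM.det - M0.det) := by
      rw [hM0]; ring
    rw [h4]
    exact Ideal.mul_mem_left _ _ hmod

end

end Vale.Agent.P291.GDet
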