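import Mathlib

set_option autoImplicit false
set_option linter.unusedSectionVars false

/-! Elements of a group algebra whose coefficients lie in a multiplicative family of ideals. -/

namespace Vale.Agent.P291.GGrade

open AddMonoidAlgebra

variable {A K G : Type} [CommRing A] [CommRing K] [AddCommGroup G] (ι : A →+* K)
  (I : G → Ideal A)

/-- the elements whose coefficient of charge `d` lies in `I d` -/
def GS (h1 : (1 : A) ∈ I 0) (hmul : ∀ d d', I d * I d' ≤ I (d + d')) :
    Subring (AddMonoidAlgebra K G) where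
  carrier := {x | ∀ d, ∃ r ∈ I d, ι r = x.coeff d}
  zero_mem' := fun d => ⟨0, Ideal.zero_mem _, by simp⟩
  add_mem' := by
    intro x y hx hy d
    obtain ⟨r, hr, hr'⟩ := hx d
    obtain ⟨s, hs, hs'⟩ := hy d
    exact ⟨r + s, Ideal.add_mem _ hr hs, by simp [hr', hs']⟩
  neg_mem' := by
    intro x hx d
    obtain ⟨r, hr, hr'⟩ := hx d
    exact ⟨-r, Ideal.neg_mem_iff _ |>.2 hr, by simp [hr']⟩
  one_mem' := by
    classical
    intro d
    by_cases h : d = 0
    · subst h
      exact ⟨1, h1, by simp⟩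
    · exact ⟨0, Ideal.zero_mem _, by
        rw [map_zero, AddMonoidAlgebra.one_def, coeff_single, Finsupp.single_apply,
          if_neg (Ne.symm h)]⟩
  mul_mem' := by
    classical
    intro x y hx hy d
    choose r hr hr' using hx
    choose s hs hs' using hy
    refine ⟨∑ a ∈ x.coeff.support, ∑ b ∈ y.coeff.support, if a + b = d then r a * s b else 0,
      ?_, ?_⟩
    · refine Ideal.sum_mem _ fun a _ => Ideal.sum_mem _ fun b _ => ?_
      split_ifs with h
      · rw [← h]
        exact hmul a b (Ideal.mul_mem_mul (hr a) (hs b))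
      · exact Ideal.zero_mem _
    · rw [coeff_mul, map_sum, Finsupp.sum]
      refine Finset.sum_congr rfl fun a _ => ?_
      rw [map_sum, Finsupp.sum]
      refine Finset.sum_congr rfl fun b _ => ?_
      split_ifs with h
      · rw [map_mul, hr', hs']
      · rw [map_zero]

lemma mem_GS {h1 : (1 : A) ∈ I 0} {hmul : ∀ d d', I d * I d' ≤ I (d + d')}
    {x : AddMonoidAlgebra K G} : x ∈ GS ι I h1 hmul ↔ ∀ d, ∃ r ∈ I d, ι r = x.coeff d := Iff.rfl

lemma single_mem_GS {h1 : (1 : A) ∈ I 0} {hmul : ∀ d d', I d * I d' ≤ I (d + d')}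
    {d : G} {r : A} (hr : r ∈ I d) : single d (ι r) ∈ GS ι I h1 hmul := by
  classical
  intro d'
  by_cases h : d = d'
  · subst h
    exact ⟨r, hr, by simp⟩
  · exact ⟨0, Ideal.zero_mem _, by rw [map_zero, coeff_single, Finsupp.single_apply, if_neg h]⟩

/-- the charge zero coefficient of a product `x * y` with `y` having no charge zero component -/
lemma mul_coeff_zero {h1 : (1 : A) ∈ I 0} {hmul : ∀ d d', I d * I d' ≤ I (d + d')}
    (𝒦 : Ideal A) (hK : ∀ d, d ≠ 0 → I (-d) * I d ≤ 𝒦)
    {x y : AddMonoidAlgebra K G} (hx : x ∈ GS ι I h1 hmul) (hy : y ∈ GS ι I h1 hmul)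
    (hy0 : y.coeff 0 = 0) : ∃ r ∈ 𝒦, ι r = (x * y).coeff 0 := by
  classical
  choose r hr hr' using hx
  choose s hs hs' using hy
  refine ⟨∑ a ∈ x.coeff.support, ∑ b ∈ y.coeff.support, if a + b = 0 then r a * s b else 0, ?_, ?_⟩
  · refine Ideal.sum_mem _ fun a _ => Ideal.sum_mem _ fun b hb => ?_
    split_ifs with h
    · have hb0 : b ≠ 0 := by
        rintro rfl
        exact (Finsupp.mem_support_iff.1 hb) hy0
      have ha : a = -b := eq_neg_of_add_eq_zero_left h
      subst ha
      exact hK b hb0 (Ideal.mul_mem_mul (hr _) (hs b))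
    · exact Ideal.zero_mem _
  · rw [coeff_mul, map_sum, Finsupp.sum]
    refine Finset.sum_congr rfl fun a _ => ?_
    rw [map_sum, Finsupp.sum]
    refine Finset.sum_congr rfl fun b _ => ?_
    split_ifs with h
    · rw [map_mul, hr', hs']
    · rw [map_zero]

end Vale.Agent.P291.GGrade
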