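import Vale.Agent.P291.GPartB

set_option autoImplicit false
set_option linter.unusedSectionVars false

/-! Conclusion. -/

namespace Vale.Agent.P291.G

open MvPolynomial Matrix Vale.Agent.P291.GDet Vale.Agent.P291.GVdm Vale.Agent.P291.GChain
  Vale.Agent.P291.GGrade

variable (D : QData)

/-- the charge of a cocharacter -/
def chg (l : B D → ℤ) (i : D.I) : ℤ := ∑ r : Fin (D.v i), l ⟨i, r⟩

lemma chg_add (l l' : B D → ℤ) : chg D (l + l') = chg D l + chg D l' := by
  funext i
  rw [Pi.add_apply, chg, chg, chg, ← Finset.sum_add_distrib]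
  rfl

lemma chg_neg (l : B D → ℤ) : chg D (-l) = -chg D l := by
  funext i
  rw [Pi.neg_apply, chg, chg, ← Finset.sum_neg_distrib]
  rfl

lemma chg_comp (l : B D → ℤ) (σ : W D) : chg D (l ∘ (perm D σ).symm) = chg D l := by
  funext i
  rw [chg, chg, ← Equiv.sum_comp (σ i)]
  refine Finset.sum_congr rfl fun r _ => ?_
  rw [Function.comp]
  congr 1
  rw [Equiv.symm_apply_eq, perm_apply]

lemma chg_min {l : B D → ℤ} (hl : Min D l) (i : D.I) : chg D l i = (mOf D l i : ℤ) := by
  rw [chg, mOf, Finset.card_filter]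
  push_cast
  refine Finset.sum_congr rfl fun r _ => ?_
  rcases hl ⟨i, r⟩ with h | h <;> simp [h]

lemma wt_chg (ν : D.I → ℤ) (l : B D → ℤ) : wt D ν l = ∑ i, ν i * chg D l i := by
  rw [wt, Fintype.sum_sigma]
  refine Finset.sum_congr rfl fun i _ => ?_
  rw [chg, Finset.mul_sum]

section
variable {K : Type} [Field K] [Algebra ℂ K] (x : B D → K) (y : Fin D.rk → K)
  (hxy : AlgebraicIndependent ℂ (Sum.elim x y)) (hD : ∀ a, D.v (D.tgt a) ≤ 1)

/-- the generators of the ideal of charge `d` -/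
def Iset (d : D.I → ℤ) : Set (Ainv D) :=
  {r | ∃ (n : ℕ) (mE mF : Fin n → D.I → ℕ), (∀ k i, mE k i ≤ D.v i) ∧ (∀ k i, mF k i ≤ D.v i) ∧
    (∀ i, (∑ k, (mE k i : ℤ)) - ∑ k, (mF k i : ℤ) = d i) ∧
    r ∈ (∏ k, LE D x y hxy hD (mE k)) * ∏ k, LF D x y hxy hD (fun i => D.v i - mF k i)}

/-- the ideal of charge `d` -/
noncomputable def Id (d : D.I → ℤ) : Ideal (Ainv D) := Ideal.span (Iset D x y hxy hD d)

lemma Id_one : (1 : Ainv D) ∈ Id D x y hxy hD 0 := by
  refine Ideal.subset_span ⟨0, fun _ _ => 0, fun _ _ => 0, fun _ _ => Nat.zero_le _,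
    fun _ _ => Nat.zero_le _, fun i => by simp, ?_⟩
  rw [Finset.univ_eq_empty, Finset.prod_empty, Finset.prod_empty, one_mul, Ideal.one_eq_top]
  exact Submodule.mem_top

lemma Iset_mul {d d' : D.I → ℤ} {r s : Ainv D} (hr : r ∈ Iset D x y hxy hD d)
    (hs : s ∈ Iset D x y hxy hD d') : ∃ (n : ℕ) (mE mF : Fin n → D.I → ℕ),
      (∀ k i, mE k i ≤ D.v i) ∧ (∀ k i, mF k i ≤ D.v i) ∧
      (∀ i, (∑ k, (mE k i : ℤ)) - ∑ k, (mF k i : ℤ) = d i + d' i) ∧
      (∀ i, (∑ k, (mE k i : ℤ)) = 0 → d i = 0 ∨ d' i = 0 ∨ (d i < 0 ∧ d' i < 0)) ∧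
      r * s ∈ (∏ k, LE D x y hxy hD (mE k)) * ∏ k, LF D x y hxy hD (fun i => D.v i - mF k i) := by
  obtain ⟨n, mE, mF, h1, h2, h3, h4⟩ := hr
  obtain ⟨n', mE', mF', h1', h2', h3', h4'⟩ := hs
  have hsum : ∀ (f : Fin n → D.I → ℕ) (f' : Fin n' → D.I → ℕ) (i : D.I),
      (∑ k, ((Fin.append f f' k i : ℕ) : ℤ)) = (∑ k, (f k i : ℤ)) + ∑ k, (f' k i : ℤ) := by
    intro f f' i
    rw [Fin.sum_univ_add]
    simp only [Fin.append_left, Fin.append_right]
  refine ⟨n + n', Fin.append mE mE', Fin.append mF mF', ?_, ?_, ?_, ?_, ?_⟩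
  · intro k i
    refine Fin.addCases (fun k => ?_) (fun k => ?_) k
    · rw [Fin.append_left]; exact h1 k i
    · rw [Fin.append_right]; exact h1' k i
  · intro k i
    refine Fin.addCases (fun k => ?_) (fun k => ?_) k
    · rw [Fin.append_left]; exact h2 k i
    · rw [Fin.append_right]; exact h2' k i
  · intro i
    rw [hsum, hsum, ← h3 i, ← h3' i]
    ring
  · intro i hi
    rw [hsum] at hi
    have e1 := h3 i
    have e2 := h3' i
    have p1 : 0 ≤ ∑ k, (mE k i : ℤ) := Finset.sum_nonneg fun k _ => Int.natCast_nonneg _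
    have p2 : 0 ≤ ∑ k, (mE' k i : ℤ) := Finset.sum_nonneg fun k _ => Int.natCast_nonneg _
    have p3 : 0 ≤ ∑ k, (mF k i : ℤ) := Finset.sum_nonneg fun k _ => Int.natCast_nonneg _
    have p4 : 0 ≤ ∑ k, (mF' k i : ℤ) := Finset.sum_nonneg fun k _ => Int.natCast_nonneg _
    omega
  · have hP : ∀ (F : (D.I → ℕ) → Ideal (Ainv D)) (f : Fin n → D.I → ℕ) (f' : Fin n' → D.I → ℕ),
        ∏ k, F (Fin.append f f' k) = (∏ k, F (f k)) * ∏ k, F (f' k) := by
      intro F f f'
      rw [Fin.prod_univ_add]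
      simp only [Fin.append_left, Fin.append_right]
    rw [hP (LE D x y hxy hD), hP (fun m => LF D x y hxy hD (fun i => D.v i - m i)), mul_mul_mul_comm]
    exact Ideal.mul_mem_mul h4 h4'

lemma Id_mul (d d' : D.I → ℤ) :
    Id D x y hxy hD d * Id D x y hxy hD d' ≤ Id D x y hxy hD (d + d') := by
  rw [Id, Id, Ideal.span_mul_span', Ideal.span_le]
  intro z hz
  rw [Set.mem_mul] at hz
  obtain ⟨r, hr, s, hs, rfl⟩ := hz
  obtain ⟨n, mE, mF, h1, h2, h3, -, h5⟩ := Iset_mul D x y hxy hD hr hs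
  exact Ideal.subset_span ⟨n, mE, mF, h1, h2, h3, h5⟩

lemma Id_neg_mul (d : D.I → ℤ) (hd : d ≠ 0) :
    Id D x y hxy hD (-d) * Id D x y hxy hD d ≤ KI D x y := by
  rw [Id, Id, Ideal.span_mul_span', Ideal.span_le]
  intro z hz
  rw [Set.mem_mul] at hz
  obtain ⟨r, hr, s, hs, rfl⟩ := hz
  obtain ⟨n, mE, mF, h1, h2, h3, h4, h5⟩ := Iset_mul D x y hxy hD hr hs
  refine star D.src D.tgt (ΦA D x y hxy) (fra D) (la D hD) (fun i => D.v i ≤ 1) (fun i hi => hi) hD
    (la_one D hD) mE mF h1 h2 ?_ ?_ _ (fun m hm hm0 => LE_LF_le D x y hxy hD m hm hm0) h5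
  · intro i
    have := h3 i
    rw [Pi.neg_apply] at this
    zify
    omega
  · by_contra hcon
    push Not at hcon
    apply hd
    funext i
    have e1 : (∑ k, (mE k i : ℤ)) = 0 := by
      have := hcon i
      zify at this
      exact this
    have e2 := h4 i e1
    rw [Pi.neg_apply] at e2
    rw [Pi.zero_apply]
    omega

lemma LE_zero : LE D x y hxy hD 0 = ⊤ := by
  rw [LE, Lm, ← Ideal.one_eq_top]
  refine Finset.prod_eq_one fun i _ => ?_
  rw [Pi.zero_apply, detIdeal_zero, Ideal.one_eq_top]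

lemma LF_v : LF D x y hxy hD (fun i => D.v i - 0) = ⊤ := by
  rw [LF, Lm, ← Ideal.one_eq_top]
  refine Finset.prod_eq_one fun i _ => ?_
  have h8 : gpol D.src D.tgt 1 (la D hD) i (fun j => D.v j - 0) = 1 := by
    rw [gpol, Pi.one_apply, one_mul]
    refine Finset.prod_eq_one fun a ha => ?_
    rw [Finset.mem_filter] at ha
    exact la_one D hD a (by simpa using ha.2.2)
  rw [h8, map_one, detIdeal_one (by rw [Fintype.card_fin]; exact Nat.sub_le _ _),
    Ideal.one_eq_top]

lemma cls_Id_pos {l : B D → ℤ} (hl : Min D l) (f : P D) :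
    ∃ r ∈ Id D x y hxy hD (chg D l), ιK D x y r = cls D x y l f := by
  obtain ⟨r, hr, hr'⟩ := cls_ideal_E D x y hxy hD hl f
  refine ⟨r, Ideal.subset_span ⟨1, fun _ => mOf D l, fun _ _ => 0, fun _ => mOf_le D l,
    fun _ _ => Nat.zero_le _, fun i => ?_, ?_⟩, hr'⟩
  · rw [chg_min D hl]; simp
  · rw [Fin.prod_univ_one, Fin.prod_univ_one, LF_v, Ideal.mul_top]
    exact hr

lemma cls_Id_neg {l : B D → ℤ} (hl : Min D l) (f : P D) :
    ∃ r ∈ Id D x y hxy hD (chg D (-l)), ιK D x y r = cls D x y (-l) f := by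
  obtain ⟨r, hr, hr'⟩ := cls_ideal_F D x y hxy hD hl f
  refine ⟨r, Ideal.subset_span ⟨1, fun _ => 0, fun _ => mOf D l, fun _ _ => Nat.zero_le _,
    fun _ => mOf_le D l, fun i => ?_, ?_⟩, hr'⟩
  · rw [chg_neg, Pi.neg_apply, chg_min D hl]; simp
  · rw [Fin.prod_univ_one, Fin.prod_univ_one, LE_zero, Ideal.top_mul]
    exact hr

end

section
variable {K L : Type} [Field K] [Algebra ℂ K] [CommRing L] [Algebra K L]
  (x : B D → K) (y : Fin D.rk → K) (u : Module.Basis (B D → ℤ) K L)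

section kap
variable (hu : ∀ l l', u (l + l') = u l * u l')

include hu in
lemma u_zero : u 0 = 1 := by
  have h : ∀ a : L, u 0 * a = a := by
    intro a
    have h1 : (LinearMap.mulLeft K (u 0)) = LinearMap.id := by
      apply u.ext
      intro l
      rw [LinearMap.mulLeft_apply, ← hu, zero_add, LinearMap.id_apply]
    have h2 := congrArg (fun g => g a) h1
    exact h2
  rw [← mul_one (u 0), h 1]

/-- the projection to charges -/
noncomputable def kap : L →ₗ[K] AddMonoidAlgebra K (D.I → ℤ) :=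
  u.constr K fun l => AddMonoidAlgebra.single (chg D l) (1 : K)

lemma kap_u (l : B D → ℤ) : kap D u (u l) = AddMonoidAlgebra.single (chg D l) (1 : K) := by
  rw [kap, Module.Basis.constr_basis]

include hu in
lemma kap_mul (a b : L) : kap D u (a * b) = kap D u a * kap D u b := by
  have h : (LinearMap.mul K L).compr₂ (kap D u) =
      (LinearMap.mul K (AddMonoidAlgebra K (D.I → ℤ))).compl₁₂ (kap D u) (kap D u) := by
    apply u.ext
    intro l
    apply u.ext
    intro l'
    rw [LinearMap.compr₂_apply, LinearMap.compl₁₂_apply, LinearMap.mul_apply',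
      LinearMap.mul_apply', ← hu, kap_u, kap_u, kap_u, AddMonoidAlgebra.single_mul_single,
      chg_add, one_mul]
  exact congrArg (fun g => g a b) h

include hu in
lemma kap_one : kap D u 1 = 1 := by
  rw [← u_zero D u hu, kap_u, AddMonoidAlgebra.one_def]
  congr 1
  funext i
  simp [chg]

include hu in
lemma kap_algebraMap (r : K) :
    kap D u (algebraMap K L r) = AddMonoidAlgebra.single (0 : D.I → ℤ) r := by
  rw [Algebra.algebraMap_eq_smul_one, map_smul, kap_one D u hu, AddMonoidAlgebra.one_def,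
    AddMonoidAlgebra.smul_single, smul_eq_mul, mul_one]

lemma kap_mono (l : B D → ℤ) (f : P D) :
    kap D u (mono D x y u l f) = AddMonoidAlgebra.single (chg D l) (cls D x y l f) := by
  rw [mono, map_sum, cls]
  have h1 : ∀ σ : W D, kap D u (co D (x ∘ perm D σ) y l f • u (l ∘ (perm D σ).symm)) =
      AddMonoidAlgebra.single (chg D l) (co D (x ∘ perm D σ) y l f) := by
    intro σ
    rw [map_smul, kap_u, chg_comp, AddMonoidAlgebra.smul_single, smul_eq_mul, mul_one]
  rw [Finset.sum_congr rfl fun σ _ => h1 σ]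
  exact (map_sum (AddMonoidAlgebra.singleAddHom (chg D l)) _ _).symm

end kap

variable (hxy : AlgebraicIndependent ℂ (Sum.elim x y)) (hD : ∀ a, D.v (D.tgt a) ≤ 1)
  (hu : ∀ l l', u (l + l') = u l * u l') (ν : D.I → ℤ)

include hu in
lemma coulomb_GS {a : L} (ha : a ∈ coulomb D x y u) :
    kap D u a ∈ GS (ιK D x y) (Id D x y hxy hD) (Id_one D x y hxy hD) (Id_mul D x y hxy hD) := by
  induction ha using Subring.closure_induction with
  | mem a ha =>
    rcases ha with ⟨r, hr, rfl⟩ | ⟨l, f, hl, rfl | rfl⟩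
    · obtain ⟨s, rfl⟩ := (mem_R_iff D x y hxy r).1 hr
      rw [kap_algebraMap D u hu]
      refine single_mem_GS _ _ ?_
      have h1 := Ideal.mul_mem_left _ s (Id_one D x y hxy hD)
      rwa [mul_one] at h1
    · obtain ⟨r, hr, hr'⟩ := cls_Id_pos D x y hxy hD hl f
      rw [kap_mono, ← hr']
      exact single_mem_GS _ _ hr
    · obtain ⟨r, hr, hr'⟩ := cls_Id_neg D x y hxy hD hl f
      rw [kap_mono, ← hr']
      exact single_mem_GS _ _ hr
  | zero => rw [map_zero]; exact Subring.zero_mem _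
  | one => rw [kap_one D u hu]; exact Subring.one_mem _
  | add a b _ _ ha hb => rw [map_add]; exact Subring.add_mem _ ha hb
  | neg a _ ha => rw [map_neg]; exact Subring.neg_mem _ ha
  | mul a b _ _ ha hb => rw [kap_mul D u hu]; exact Subring.mul_mem _ ha hb

lemma kap_span {m : ℤ} (hm : m ≠ 0) {b : L}
    (hb : b ∈ Submodule.span K (u '' {l | wt D ν l = m})) : (kap D u b).coeff 0 = 0 := by
  classical
  induction hb using Submodule.span_induction with
  | mem b hb =>
    obtain ⟨l, hl, rfl⟩ := hb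
    rw [kap_u, AddMonoidAlgebra.coeff_single, Finsupp.single_apply, if_neg]
    intro h
    apply hm
    have hl2 : wt D ν l = m := hl
    rw [← hl2, wt_chg, h]
    simp
  | zero => simp
  | add a b _ _ ha hb => rw [map_add, AddMonoidAlgebra.coeff_add, Finsupp.add_apply, ha, hb, add_zero]
  | smul c a _ ha => rw [map_smul, AddMonoidAlgebra.coeff_smul, Finsupp.smul_apply, ha, smul_zero]

include hxy hD hu in
lemma fixI_coeff {c : L} (hc : c ∈ fixI D x y u ν) :
    ∃ r ∈ KI D x y, ιK D x y r = (kap D u c).coeff 0 := by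
  induction hc using AddSubgroup.closure_induction with
  | mem c hc =>
    obtain ⟨a, ha, b, hb, m, hm, hbm, rfl⟩ := hc
    rw [kap_mul D u hu]
    exact mul_coeff_zero (ιK D x y) (Id D x y hxy hD) (KI D x y) (Id_neg_mul D x y hxy hD)
      (coulomb_GS D x y u hxy hD hu ha) (coulomb_GS D x y u hxy hD hu hb) (kap_span D u ν hm hbm)
  | zero => exact ⟨0, Ideal.zero_mem _, by simp⟩
  | add a b _ _ ha hb =>
    obtain ⟨r, hr, hr'⟩ := ha
    obtain ⟨s, hs, hs'⟩ := hb
    exact ⟨r + s, Ideal.add_mem _ hr hs, by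
      rw [map_add, hr', hs', map_add, AddMonoidAlgebra.coeff_add, Finsupp.add_apply]⟩
  | neg a _ ha =>
    obtain ⟨r, hr, hr'⟩ := ha
    exact ⟨-r, Ideal.neg_mem_iff _ |>.2 hr, by
      rw [map_neg, hr', map_neg, AddMonoidAlgebra.coeff_neg, Finsupp.neg_apply]⟩

include hxy hD hu in
/-- the hard direction -/
lemma fixI_Kdec {r : K} (hr : algebraMap K L r ∈ fixI D x y u ν) : r ∈ Kdec D x y := by
  obtain ⟨s, hs, hs'⟩ := fixI_coeff D x y u hxy hD hu ν hr
  rw [kap_algebraMap D u hu, AddMonoidAlgebra.coeff_single, Finsupp.single_eq_same] at hs'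
  rw [← hs']
  exact hs

include hxy hD hu in
/-- the other direction -/
lemma Kdec_fixI (hν : ∀ l, Min D l → l ≠ 0 → wt D ν l ≠ 0) {r : K} (hr : r ∈ Kdec D x y) :
    algebraMap K L r ∈ fixI D x y u ν := by
  have hu0 := u_zero D u hu
  induction hr using AddSubgroup.closure_induction with
  | mem z hz =>
    obtain ⟨l, f, g, hl, hl0, rfl⟩ := hz
    have h1 := cls_clos_E D x y hD hl f hxy
    have h2 := cls_clos_F D x y hD hl g hxy
    generalize cls D x y l f = z1 at h1 ⊢
    generalize cls D x y (-l) g = z2 at h2 ⊢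
    induction h1 using AddSubgroup.closure_induction with
    | mem z1 hz1 =>
      obtain ⟨κ, φ, rfl⟩ := hz1
      induction h2 using AddSubgroup.closure_induction with
      | mem z2 hz2 =>
        obtain ⟨κ', ψ, rfl⟩ := hz2
        rw [← map_mul]
        exact EE_FF_mem D x y u ν hxy hD hu hu0 hν hl hl0 κ κ' φ ψ
      | zero => rw [mul_zero, map_zero]; exact AddSubgroup.zero_mem _
      | add a b _ _ ha hb => rw [mul_add, map_add]; exact AddSubgroup.add_mem _ ha hb
      | neg a _ ha => rw [mul_neg, map_neg]; exact AddSubgroup.neg_mem _ ha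
    | zero => rw [zero_mul, map_zero]; exact AddSubgroup.zero_mem _
    | add a b _ _ ha hb => rw [add_mul, map_add]; exact AddSubgroup.add_mem _ ha hb
    | neg a _ ha => rw [neg_mul, map_neg]; exact AddSubgroup.neg_mem _ ha
  | zero => rw [map_zero]; exact AddSubgroup.zero_mem _
  | add a b _ _ ha hb => rw [map_add]; exact AddSubgroup.add_mem _ ha hb
  | neg a _ ha => rw [map_neg]; exact AddSubgroup.neg_mem _ ha

include hu in
lemma mono_zero (f : P D) : mono D x y u 0 f = algebraMap K L (cls D x y 0 f) := by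
  rw [mono, cls, map_sum]
  refine Finset.sum_congr rfl fun σ _ => ?_
  have h1 : (0 : B D → ℤ) ∘ (perm D σ).symm = 0 := rfl
  rw [h1, u_zero D u hu, Algebra.algebraMap_eq_smul_one]

include hxy hD hu in
/-- surjectivity -/
lemma surj (hν : ∀ l, Min D l → l ≠ 0 → wt D ν l ≠ 0) {a : L} (ha : a ∈ coulomb D x y u) :
    ∃ r : Ainv D, a - ιL D x y r ∈ fixI D x y u ν := by
  induction ha using Subring.closure_induction with
  | mem a ha =>
    rcases ha with ⟨r, hr, rfl⟩ | ⟨l, f, hl, h⟩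
    · obtain ⟨s, rfl⟩ := (mem_R_iff D x y hxy r).1 hr
      refine ⟨s, ?_⟩
      have : algebraMap K L (ιK D x y s) - ιL D x y s = 0 := sub_self _
      rw [this]
      exact AddSubgroup.zero_mem _
    · by_cases hl0 : l = 0
      · subst hl0
        have h1 : a = algebraMap K L (cls D x y 0 f) := by
          rcases h with rfl | rfl
          · exact mono_zero D x y u hu f
          · rw [neg_zero]; exact mono_zero D x y u hu f
        obtain ⟨r, -, hr⟩ := cls_ideal_E D x y hxy hD hl f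
        refine ⟨r, ?_⟩
        have : a - ιL D x y r = 0 := by rw [h1, ← hr]; exact sub_self _
        rw [this]
        exact AddSubgroup.zero_mem _
      · refine ⟨0, ?_⟩
        rw [map_zero, sub_zero]
        rcases h with rfl | rfl
        · exact mono_mem_fixI D x y u ν hl (hν l hl hl0) f
        · exact mono_neg_mem_fixI D x y u ν hl (hν l hl hl0) f
  | zero => exact ⟨0, by rw [map_zero, sub_zero]; exact AddSubgroup.zero_mem _⟩
  | one => exact ⟨1, by rw [map_one, sub_self]; exact AddSubgroup.zero_mem _⟩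
  | add a b _ _ ha hb =>
    obtain ⟨r, hr⟩ := ha
    obtain ⟨s, hs⟩ := hb
    exact ⟨r + s, by
      rw [map_add, add_sub_add_comm]
      exact AddSubgroup.add_mem _ hr hs⟩
  | neg a _ ha =>
    obtain ⟨r, hr⟩ := ha
    exact ⟨-r, by
      have := AddSubgroup.neg_mem _ hr
      rw [map_neg]
      rwa [neg_sub, ← neg_sub_neg] at this⟩
  | mul a b ha' hb' ha hb =>
    obtain ⟨r, hr⟩ := ha
    obtain ⟨s, hs⟩ := hb
    refine ⟨r * s, ?_⟩
    have h1 : a * b - ιL D x y (r * s) = a * (b - ιL D x y s) + ιL D x y s * (a - ιL D x y r) := by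
      rw [map_mul]; ring
    rw [h1]
    exact AddSubgroup.add_mem _ (fixI_mul D x y u ν ha' hs)
      (fixI_mul D x y u ν (ιL_mem D x y u s) hr)

end

/-- main theorem -/
theorem main (K L : Type) [Field K] [Algebra ℂ K] [CommRing L] [Algebra K L]
    (x : B D → K) (y : Fin D.rk → K) (hxy : AlgebraicIndependent ℂ (Sum.elim x y))
    (u : Module.Basis (B D → ℤ) K L) (hu : ∀ l l', u (l + l') = u l * u l')
    (hD : ∀ a, D.v (D.tgt a) ≤ 1) (ν : D.I → ℤ)
    (hν : ∀ l, Min D l → l ≠ 0 → wt D ν l ≠ 0) :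
    (∀ a ∈ coulomb D x y u, ∃ r ∈ R D x y, a - algebraMap K L r ∈ fixI D x y u ν) ∧
      ∀ r ∈ R D x y, algebraMap K L r ∈ fixI D x y u ν ↔ r ∈ Kdec D x y := by
  refine ⟨fun a ha => ?_, fun r _ => ⟨fun h => fixI_Kdec D x y u hxy hD hu ν h,
    fun h => Kdec_fixI D x y u hxy hD hu ν hν h⟩⟩
  obtain ⟨r, hr⟩ := surj D x y u hxy hD hu ν hν ha
  exact ⟨_, R_of_inv D x y r, hr⟩

end Vale.Agent.P291.G
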