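import Vale.Agent.P291.GSymE

set_option autoImplicit false
set_option linter.unusedSectionVars false

/-! Products of classes of opposite charges vanish on the fixed scheme. -/

namespace Vale.Agent.P291.G

open MvPolynomial Matrix Vale.Agent.P291.GDet Vale.Agent.P291.GVdm Vale.Agent.P291.GChain

variable (D : QData)

lemma colM_X {A : Type} [CommRing A] {f : Polynomial A} {d : ℕ} (hf : f.Monic)
    (hd : f.natDegree = d) : colM f d (fun c => Polynomial.X ^ (c : ℕ)) = 1 := by
  nontriviality A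
  ext r c
  rw [colM, Matrix.of_apply, (Polynomial.modByMonic_eq_self_iff hf).2, Polynomial.coeff_X_pow,
    Matrix.one_apply]
  · simp only [Fin.ext_iff]
  · rw [Polynomial.degree_X_pow, Polynomial.degree_eq_natDegree hf.ne_zero, hd]
    exact_mod_cast c.2

lemma colM_surj {A : Type} [CommRing A] {f : Polynomial A} {d : ℕ} (hf : f.Monic)
    (hd : f.natDegree = d) (M : Matrix (Fin d) (Fin d) A) : ∃ φ, colM f d φ = M := by
  nontriviality A
  refine ⟨fun c => ∑ k : Fin d, Polynomial.C (M k c) * Polynomial.X ^ (k : ℕ), ?_⟩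
  ext r c
  rw [colM, Matrix.of_apply, (Polynomial.modByMonic_eq_self_iff hf).2, Polynomial.finsetSum_coeff]
  · rw [Finset.sum_eq_single r]
    · rw [Polynomial.coeff_C_mul, Polynomial.coeff_X_pow, if_pos rfl, mul_one]
    · intro k _ hk
      rw [Polynomial.coeff_C_mul, Polynomial.coeff_X_pow, if_neg, mul_zero]
      exact fun h => hk (Fin.ext h.symm)
    · intro h; exact absurd (Finset.mem_univ _) h
  · rw [Polynomial.degree_eq_natDegree hf.ne_zero, hd]
    refine (Polynomial.degree_sum_le _ _).trans_lt ?_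
    rw [Finset.sup_lt_iff (by exact_mod_cast WithBot.bot_lt_coe d)]
    intro k _
    refine (Polynomial.degree_C_mul_X_pow_le _ _).trans_lt ?_
    exact_mod_cast k.2

section
variable {K L : Type} [Field K] [Algebra ℂ K] [CommRing L] [Algebra K L]
  (x : B D → K) (y : Fin D.rk → K) (u : (B D → ℤ) → L)
  (hxy : AlgebraicIndependent ℂ (Sum.elim x y)) (hD : ∀ a, D.v (D.tgt a) ≤ 1)

/-- polynomial of the positive side -/
noncomputable def gE (l : B D → ℤ) (i : D.I) : Polynomial (Ainv D) :=
  gpol D.src D.tgt (fra D) (la D hD) i (mOf D l)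

/-- polynomial of the negative side -/
noncomputable def gF (l : B D → ℤ) (i : D.I) : Polynomial (Ainv D) :=
  gpol D.src D.tgt 1 (la D hD) i fun i => D.v i - mOf D l i

/-- positive determinant -/
noncomputable def EE (l : B D → ℤ) (φ : B D → Polynomial (Ainv D)) (i : D.I) : Ainv D :=
  (mixCols (cols D l i) (MM (chA D i) (D.v i) (gE D hD l i) * Xm D φ i) (Xm D φ i)).det

/-- negative determinant -/
noncomputable def FF (l : B D → ℤ) (φ : B D → Polynomial (Ainv D)) (i : D.I) : Ainv D :=
  (mixCols (cols D l i) (Xm D φ i) (MM (chA D i) (D.v i) (gF D hD l i) * Xm D φ i)).det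

include hxy

lemma Md_gen (i : D.I) (g : Polynomial (Ainv D)) :
    Md (yL D x i) (fun r => algebraMap K L (Polynomial.eval₂ (ιK D x y) (x ⟨i, r⟩) g)) =
      (MM (chA D i) (D.v i) g).map (ιL D x y (L := L)) := by
  rw [← Md_eval (ιL D x y) (chA_monic D i) (chA_deg D i) (vL_unit D x y hxy i)
    (fun r => eval_chL D x y i r)]
  congr 1
  funext r
  rw [yL, eval_ιL]

lemma Md_gen_one (i : D.I) : Md (yL D x i (L := L)) (fun _ => 1) = 1 :=
  Md_one (vL_unit D x y hxy i)

lemma DDi_E_one (l : B D → ℤ) (φ : B D → Polynomial (Ainv D)) (i : D.I) :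
    DDi D x y l (bE D x y (fun _ => (1 : L)) hD l) (fun _ => 1) φ i =
      ιL D x y (EE D hD l φ i) := by
  rw [DDi, EE, RingHom.map_det]
  congr 1
  rw [Md_gen_one D x y hxy i, Matrix.one_mul]
  have h1 : (fun r => bE D x y (fun _ => (1 : L)) hD l ⟨i, r⟩) =
      fun r => algebraMap K L (Polynomial.eval₂ (ιK D x y) (x ⟨i, r⟩) (gE D hD l i)) := by
    funext r
    rw [bE, mul_one]; rfl
  rw [h1, Md_gen D x y hxy i, RingHom.mapMatrix_apply, map_mixCols, Matrix.map_mul]

lemma DDi_F_one (l : B D → ℤ) (φ : B D → Polynomial (Ainv D)) (i : D.I) :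
    DDi D x y l (fun _ => (1 : L)) (bF D x y hD l) φ i =
      ιL D x y (FF D hD l φ i) := by
  rw [DDi, FF, RingHom.map_det]
  congr 1
  rw [Md_gen_one D x y hxy i, Matrix.one_mul]
  have h1 : (fun r => bF D x y hD l ⟨i, r⟩ (L := L)) =
      fun r => algebraMap K L (Polynomial.eval₂ (ιK D x y) (x ⟨i, r⟩) (gF D hD l i)) := rfl
  rw [h1, Md_gen D x y hxy i, RingHom.mapMatrix_apply, map_mixCols, Matrix.map_mul]

end

end Vale.Agent.P291.G
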