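import Vale.Agent.P291.GPartA

set_option autoImplicit false
set_option linter.unusedSectionVars false

/-! Products of classes of opposite charges vanish on the fixed scheme: the computation. -/

namespace Vale.Agent.P291.G

open MvPolynomial Matrix Vale.Agent.P291.GDet Vale.Agent.P291.GVdm Vale.Agent.P291.GChain

variable (D : QData)

section
variable {K L : Type} [Field K] [Algebra ℂ K] [CommRing L] [Algebra K L]
  (x : B D → K) (y : Fin D.rk → K) (u : (B D → ℤ) → L) (ν : D.I → ℤ)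

lemma R_of_inv (r : Ainv D) : ιK D x y r ∈ R D x y := by
  refine ⟨(r : P D), fun σ => ?_⟩
  rw [pol_act, (mem_Ainv D).1 r.2 σ, ιK_apply]

lemma ιL_mem (r : Ainv D) : ιL D x y r ∈ coulomb D x y u :=
  Subring.subset_closure (Or.inl ⟨_, R_of_inv D x y r, rfl⟩)

lemma mono_mem_coulomb {l : B D → ℤ} (hl : Min D l) (f : P D) :
    mono D x y u l f ∈ coulomb D x y u :=
  Subring.subset_closure (Or.inr ⟨l, f, hl, Or.inl rfl⟩)

lemma mono_neg_mem_coulomb {l : B D → ℤ} (hl : Min D l) (f : P D) :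
    mono D x y u (-l) f ∈ coulomb D x y u :=
  Subring.subset_closure (Or.inr ⟨l, f, hl, Or.inr rfl⟩)

lemma wt_comp (l : B D → ℤ) (σ : W D) : wt D ν (l ∘ (perm D σ).symm) = wt D ν l := by
  rw [wt, wt, ← Equiv.sum_comp (perm D σ)]
  refine Finset.sum_congr rfl fun b _ => ?_
  rw [Function.comp, Equiv.symm_apply_apply, perm_fst]

lemma mono_mem_span (l : B D → ℤ) (f : P D) :
    mono D x y u l f ∈ Submodule.span K (u '' {l' | wt D ν l' = wt D ν l}) := by
  rw [mono]
  refine Submodule.sum_mem _ fun σ _ => Submodule.smul_mem _ _ (Submodule.subset_span ?_)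
  exact ⟨_, wt_comp D ν l σ, rfl⟩

lemma mono_mem_fixI {l : B D → ℤ} (hl : Min D l) (h0 : wt D ν l ≠ 0) (f : P D) :
    mono D x y u l f ∈ fixI D x y u ν :=
  AddSubgroup.subset_closure ⟨1, Subring.one_mem _, _, mono_mem_coulomb D x y u hl f, _, h0,
    mono_mem_span D x y u ν l f, (one_mul _).symm⟩

lemma wt_neg (l : B D → ℤ) : wt D ν (-l) = -wt D ν l := by
  rw [wt, wt, ← Finset.sum_neg_distrib]
  exact Finset.sum_congr rfl fun b _ => by rw [Pi.neg_apply]; ring

lemma mono_neg_mem_fixI {l : B D → ℤ} (hl : Min D l) (h0 : wt D ν l ≠ 0) (f : P D) :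
    mono D x y u (-l) f ∈ fixI D x y u ν :=
  AddSubgroup.subset_closure ⟨1, Subring.one_mem _, _, mono_neg_mem_coulomb D x y u hl f, _,
    (by rw [wt_neg]; exact neg_ne_zero.2 h0 : wt D ν (-l) ≠ 0),
    mono_mem_span D x y u ν (-l) f, (one_mul _).symm⟩

lemma fixI_mul {a c : L} (ha : a ∈ coulomb D x y u) (hc : c ∈ fixI D x y u ν) :
    a * c ∈ fixI D x y u ν := by
  induction hc using AddSubgroup.closure_induction with
  | mem c hc =>
    obtain ⟨a', ha', b, hb, m, hm, hbm, rfl⟩ := hc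
    rw [← mul_assoc]
    exact AddSubgroup.subset_closure ⟨a * a', Subring.mul_mem _ ha ha', b, hb, m, hm, hbm, rfl⟩
  | zero => rw [mul_zero]; exact AddSubgroup.zero_mem _
  | add c c' _ _ h h' => rw [mul_add]; exact AddSubgroup.add_mem _ h h'
  | neg c _ h => rw [mul_neg]; exact AddSubgroup.neg_mem _ h

/-- the ideal of the Coulomb branch ring -/
noncomputable def JI : Ideal (coulomb D x y u) where
  carrier := {a | (a : L) ∈ fixI D x y u ν}
  add_mem' := by
    intro a b ha hb
    change (a : L) + (b : L) ∈ fixI D x y u ν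
    exact AddSubgroup.add_mem _ ha hb
  zero_mem' := by
    change (0 : L) ∈ fixI D x y u ν
    exact AddSubgroup.zero_mem _
  smul_mem' := fun c a ha => fixI_mul D x y u ν c.2 ha

lemma mem_JI (a : coulomb D x y u) : a ∈ JI D x y u ν ↔ (a : L) ∈ fixI D x y u ν := Iff.rfl

/-- invariants in the Coulomb branch ring -/
noncomputable def jA : Ainv D →+* coulomb D x y u :=
  (ιL D x y).codRestrict (coulomb D x y u) fun r => ιL_mem D x y u r

lemma jA_coe (r : Ainv D) : ((jA D x y u r : coulomb D x y u) : L) = ιL D x y r := rfl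

variable (hxy : AlgebraicIndependent ℂ (Sum.elim x y)) (hD : ∀ a, D.v (D.tgt a) ≤ 1)
  (hu : ∀ l l', u (l + l') = u l * u l') (hu0 : u 0 = 1)
include hxy hu hu0

omit hxy hu hu0 in
lemma min_dl (b : B D) : Min D (dl D b) := by
  intro b'
  by_cases h : b' = b
  · subst h; right; exact Pi.single_eq_same _ _
  · left; exact Pi.single_eq_of_ne h _

omit hxy hu hu0 in
lemma mOf_dl_ne (i j : D.I) (k : Fin (D.v i)) (h : j ≠ i) : mOf D (dl D ⟨i, k⟩) j = 0 := by
  rw [mOf, Finset.card_eq_zero, Finset.filter_eq_empty_iff]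
  intro r _
  rw [dl, Pi.single_eq_of_ne]
  · exact zero_ne_one
  · intro h'; rw [Sigma.mk.injEq] at h'; exact h h'.1

omit hxy hu hu0 in
lemma cols_dl_ne (i j : D.I) (k : Fin (D.v i)) (h : j ≠ i) : cols D (dl D ⟨i, k⟩) j = ∅ :=
  Finset.card_eq_zero.1 (mOf_dl_ne D i j k h)

omit hxy hu hu0 in
lemma cols_dl_self (i : D.I) (k : Fin (D.v i)) : cols D (dl D ⟨i, k⟩) i = {k} := by
  ext r
  rw [cols, Finset.mem_filter, Finset.mem_singleton, dl]
  by_cases h : r = k
  · subst h; simp
  · rw [Pi.single_eq_of_ne]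
    · simp [h]
    · intro h'; rw [Sigma.mk.injEq] at h'; exact h (eq_of_heq h'.2)

/-- columns used to extract the entry `k, c` -/
noncomputable def φX (i : D.I) (k c : Fin (D.v i)) (b : B D) : Polynomial (Ainv D) :=
  if b = ⟨i, k⟩ then Polynomial.X ^ (c : ℕ) else Polynomial.X ^ (b.2 : ℕ)

omit hxy hu hu0 in
lemma Xm_φX_ne (i j : D.I) (k c : Fin (D.v i)) (h : j ≠ i) : Xm D (φX D i k c) j = 1 := by
  rw [Xm, ← colM_X (chA_monic D j) (chA_deg D j)]
  congr 1
  funext r
  rw [φX, if_neg]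
  intro h'; rw [Sigma.mk.injEq] at h'; exact h h'.1

omit hxy hu hu0 in
/-- extraction of an entry -/
lemma det_extract {A : Type} [CommRing A] {n : Type} [Fintype n] [DecidableEq n] (M X : Matrix n n A)
    (k c : n) (hX : ∀ r, ∀ j, j ≠ k → X r j = if r = j then 1 else 0)
    (hk : ∀ r, X r k = if r = c then 1 else 0) : (mixCols {k} (M * X) X).det = M k c := by
  have h1 : mixCols {k} (M * X) X = (1 : Matrix n n A).updateCol k (fun r => M r c) := by
    ext r j
    rw [mixCols_apply, updateCol_apply]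
    by_cases h : j = k
    · subst h
      simp only [Finset.mem_singleton, if_true]
      rw [Matrix.mul_apply, Finset.sum_eq_single c]
      · rw [hk, if_pos rfl, mul_one]
      · intro r' _ hr'
        rw [hk, if_neg hr', mul_zero]
      · intro h; exact absurd (Finset.mem_univ _) h
    · rw [if_neg (by simpa using h), if_neg h, hX r j h, Matrix.one_apply]
  rw [h1]
  rw [← cramer_apply, cramer_one]
  rfl

omit hxy hu hu0 in
lemma gpol_dl (i : D.I) (hi : ∀ a, D.tgt a ≠ i) (k : Fin (D.v i)) :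
    gpol D.src D.tgt (fra D) (la D hD) i (mOf D (dl D ⟨i, k⟩)) =
      fra D i * ∏ a with D.src a = i, la D hD a := by
  rw [gpol]
  congr 1
  refine Finset.prod_congr ?_ fun _ _ => rfl
  ext a
  simp only [Finset.mem_filter, Finset.mem_univ, true_and, and_iff_left_iff_imp]
  intro _
  exact mOf_dl_ne D i _ k (hi a)

lemma entry_E (i : D.I) (hi : ∀ a, D.tgt a ≠ i) (k c : Fin (D.v i)) :
    ∃ f : P D, Md (yL D x i) (fun r => algebraMap K L (Polynomial.eval₂ (ιK D x y) (x ⟨i, r⟩)
      (fra D i * ∏ a with D.src a = i, la D hD a)) * u (dl D ⟨i, r⟩)) k c =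
      mono D x y u (dl D ⟨i, k⟩) f := by
  have hl := min_dl D ⟨i, k⟩
  obtain ⟨f, hf⟩ := DD_mono D x y u hxy (dl D ⟨i, k⟩) (dl D ⟨i, k⟩) (min_sub D hl)
    (bE D x y u hD (dl D ⟨i, k⟩)) (fun _ => 1) (hβE D x y u hu hu0 hD hl) 1 (φX D i k c)
  refine ⟨f, ?_⟩
  rw [← hf, map_one, one_mul, Finset.prod_eq_single i]
  · rw [DDi, Md_gen_one D x y hxy i, Matrix.one_mul, cols_dl_self]
    have h1 : (fun r => bE D x y u hD (dl D ⟨i, k⟩) ⟨i, r⟩) =
        fun r => algebraMap K L (Polynomial.eval₂ (ιK D x y) (x ⟨i, r⟩)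
          (fra D i * ∏ a with D.src a = i, la D hD a)) * u (dl D ⟨i, r⟩) := by
      funext r
      rw [bE, gpol_dl D hD i hi k]
    rw [h1, det_extract _ _ k c]
    · intro r j hj
      have h2 : φX D i k c ⟨i, j⟩ = Polynomial.X ^ (j : ℕ) := by
        rw [φX, if_neg]
        intro h'; rw [Sigma.mk.injEq] at h'; exact hj (eq_of_heq h'.2)
      have h3 := congrFun (congrFun (colM_X (chA_monic D i) (chA_deg D i)) r) j
      rw [colM, Matrix.of_apply] at h3
      rw [Matrix.map_apply, Xm, colM, Matrix.of_apply, h2, h3, Matrix.one_apply]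
      split_ifs <;> simp
    · intro r
      have h2 : φX D i k c ⟨i, k⟩ = Polynomial.X ^ (c : ℕ) := by
        rw [φX, if_pos rfl]
      have h3 := congrFun (congrFun (colM_X (chA_monic D i) (chA_deg D i)) r) c
      rw [colM, Matrix.of_apply] at h3
      rw [Matrix.map_apply, Xm, colM, Matrix.of_apply, h2, h3, Matrix.one_apply]
      split_ifs <;> simp
  · intro j _ hj
    rw [DDi, Md_gen_one D x y hxy j, Matrix.one_mul, cols_dl_ne D i j k hj, Xm_φX_ne D i j k c hj]
    have : mixCols ∅ (Md (yL D x j) (fun r => bE D x y u hD (dl D ⟨i, k⟩) ⟨j, r⟩) *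
        (1 : Matrix (Fin (D.v j)) (Fin (D.v j)) (Ainv D)).map (ιL D x y (L := L)))
        ((1 : Matrix (Fin (D.v j)) (Fin (D.v j)) (Ainv D)).map (ιL D x y (L := L))) = 1 := by
      ext r c'
      rw [mixCols_apply, if_neg (Finset.notMem_empty _), Matrix.map_one _ (map_zero _) (map_one _)]
    rw [this, det_one]
  · intro h; exact absurd (Finset.mem_univ _) h

include hD in
lemma entry_F (i : D.I) (hi : ∀ a, D.tgt a ≠ i) (k c : Fin (D.v i)) :
    ∃ f : P D, Md (yL D x i) (fun r => u (-dl D ⟨i, r⟩)) k c =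
      mono D x y u (-dl D ⟨i, k⟩) f := by
  have hl := min_dl D ⟨i, k⟩
  obtain ⟨f, hf⟩ := DD_mono D x y u hxy (dl D ⟨i, k⟩) (-dl D ⟨i, k⟩) (min_sub_neg D hl)
    (fun b => u (-dl D b)) (bF D x y hD (dl D ⟨i, k⟩)) (hβF D x y u hu hu0 hD hl) 1 (φX D i k c)
  refine ⟨f, ?_⟩
  have hg : ∀ j, gpol D.src D.tgt 1 (la D hD) j
      (fun i_1 => D.v i_1 - mOf D (dl D ⟨i, k⟩) i_1) = 1 := by
    intro j
    rw [gpol, Pi.one_apply, one_mul]
    refine Finset.prod_eq_one fun a ha => ?_
    rw [Finset.mem_filter] at ha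
    apply la_one
    have h9 := ha.2.2
    rw [mOf_dl_ne D i _ k (hi a)] at h9
    omega
  have h0 : ∀ j, (fun r => bF D x y hD (dl D ⟨i, k⟩) ⟨j, r⟩ (L := L)) = fun _ => 1 := by
    intro j
    funext r
    rw [bF, hg, Polynomial.eval₂_one, map_one]
  rw [← hf, map_one, one_mul, Finset.prod_eq_single i]
  · rw [DDi, h0, Md_gen_one D x y hxy i, Matrix.one_mul, cols_dl_self]
    rw [det_extract _ _ k c]
    · intro r j hj
      have h2 : φX D i k c ⟨i, j⟩ = Polynomial.X ^ (j : ℕ) := by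
        rw [φX, if_neg]
        intro h'; rw [Sigma.mk.injEq] at h'; exact hj (eq_of_heq h'.2)
      have h3 := congrFun (congrFun (colM_X (chA_monic D i) (chA_deg D i)) r) j
      rw [colM, Matrix.of_apply] at h3
      rw [Matrix.map_apply, Xm, colM, Matrix.of_apply, h2, h3, Matrix.one_apply]
      split_ifs <;> simp
    · intro r
      have h2 : φX D i k c ⟨i, k⟩ = Polynomial.X ^ (c : ℕ) := by
        rw [φX, if_pos rfl]
      have h3 := congrFun (congrFun (colM_X (chA_monic D i) (chA_deg D i)) r) c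
      rw [colM, Matrix.of_apply] at h3
      rw [Matrix.map_apply, Xm, colM, Matrix.of_apply, h2, h3, Matrix.one_apply]
      split_ifs <;> simp
  · intro j _ hj
    rw [DDi, h0, Md_gen_one D x y hxy j, Matrix.one_mul, cols_dl_ne D i j k hj,
      Xm_φX_ne D i j k c hj]
    have : mixCols ∅ (Md (yL D x j) (fun r => u (-dl D ⟨j, r⟩)) *
        (1 : Matrix (Fin (D.v j)) (Fin (D.v j)) (Ainv D)).map (ιL D x y (L := L)))
        ((1 : Matrix (Fin (D.v j)) (Fin (D.v j)) (Ainv D)).map (ιL D x y (L := L))) = 1 := by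
      ext r c'
      rw [mixCols_apply, if_neg (Finset.notMem_empty _), Matrix.map_one _ (map_zero _) (map_one _)]
    rw [this, det_one]
  · intro h; exact absurd (Finset.mem_univ _) h

end

end Vale.Agent.P291.G
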