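import Vale.Agent.P291.GPartA2

set_option autoImplicit false
set_option linter.unusedSectionVars false

/-! Products of classes of opposite charges vanish on the fixed scheme: conclusion. -/

namespace Vale.Agent.P291.G

open MvPolynomial Matrix Vale.Agent.P291.GDet Vale.Agent.P291.GVdm Vale.Agent.P291.GChain

variable (D : QData)

section
variable {K L : Type} [Field K] [Algebra ℂ K] [CommRing L] [Algebra K L]
  (x : B D → K) (y : Fin D.rk → K) (u : (B D → ℤ) → L) (ν : D.I → ℤ)
  (hxy : AlgebraicIndependent ℂ (Sum.elim x y)) (hD : ∀ a, D.v (D.tgt a) ≤ 1)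
  (hu : ∀ l l', u (l + l') = u l * u l') (hu0 : u 0 = 1)
  (hν : ∀ l, Min D l → l ≠ 0 → wt D ν l ≠ 0)

lemma dl_ne_zero (b : B D) : dl D b ≠ 0 := by
  intro h
  have := congrFun h b
  rw [dl, Pi.single_eq_same] at this
  exact one_ne_zero this

/-- exchange of the columns in `l` -/
noncomputable def exch (l : B D → ℤ) (φ ψ : B D → Polynomial (Ainv D)) (b : B D) :
    Polynomial (Ainv D) := if l b = 1 then ψ b else φ b

lemma gEF {l : B D → ℤ} (i : D.I) :
    gE D hD l i * gF D hD l i = fra D i * ∏ a with D.src a = i, la D hD a := by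
  rw [gE, gF, gpol, gpol, Pi.one_apply, one_mul, mul_assoc]
  congr 1
  rw [Finset.prod_filter, Finset.prod_filter, Finset.prod_filter, ← Finset.prod_mul_distrib]
  refine Finset.prod_congr rfl fun a _ => ?_
  by_cases h12 : D.src a = i
  · have h15 := mOf_le D l (D.tgt a)
    have h14 := hD a
    rcases Nat.eq_zero_or_pos (D.v (D.tgt a)) with h16 | h16
    · rw [la_one D hD a h16]; simp
    · by_cases h17 : mOf D l (D.tgt a) = 0
      · have h18 : ¬ (D.v (D.tgt a) - mOf D l (D.tgt a) = 0) := by omega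
        rw [if_pos ⟨h12, h17⟩, if_neg (fun h => h18 h.2), if_pos h12, mul_one]
      · have h18 : (D.v (D.tgt a) - mOf D l (D.tgt a) = 0) := by omega
        rw [if_neg (fun h => h17 h.2), if_pos ⟨h12, h18⟩, if_pos h12, one_mul]
  · rw [if_neg (fun h => h12 h.1), if_neg (fun h => h12 h.1), if_neg h12, mul_one]

lemma Xm_exch_col (l : B D → ℤ) (φ ψ : B D → Polynomial (Ainv D)) (i : D.I) (r c : Fin (D.v i)) :
    Xm D (exch D l φ ψ) i r c = if c ∈ cols D l i then Xm D ψ i r c else Xm D φ i r c := by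
  rw [Xm, Xm, Xm, colM, colM, colM, Matrix.of_apply, Matrix.of_apply, Matrix.of_apply, exch]
  by_cases h : l ⟨i, c⟩ = 1
  · have : c ∈ cols D l i := by simp [cols, h]
    rw [if_pos h, if_pos this]
  · have : c ∉ cols D l i := by simp [cols, h]
    rw [if_neg h, if_neg this]

lemma mul_col_congr {A : Type} [CommRing A] {n : Type} [Fintype n] (M X Y : Matrix n n A) (r c : n)
    (h : ∀ k, X k c = Y k c) : (M * X) r c = (M * Y) r c := by
  rw [Matrix.mul_apply, Matrix.mul_apply]
  exact Finset.sum_congr rfl fun k _ => by rw [h]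

lemma EE_exch (l : B D → ℤ) (φ ψ : B D → Polynomial (Ainv D)) (i : D.I) :
    (mixCols (cols D l i) (MM (chA D i) (D.v i) (gE D hD l i) * Xm D (exch D l ψ φ) i)
      (Xm D (exch D l φ ψ) i)).det = EE D hD l φ i := by
  rw [EE]
  refine congrArg Matrix.det (Matrix.ext fun r c => ?_)
  rw [mixCols_apply, mixCols_apply]
  split_ifs with h
  · exact mul_col_congr _ _ _ _ _ fun k => by rw [Xm_exch_col, if_pos h]
  · rw [Xm_exch_col, if_neg h]

lemma FF_exch (l : B D → ℤ) (φ ψ : B D → Polynomial (Ainv D)) (i : D.I) :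
    (mixCols (cols D l i) (Xm D (exch D l φ ψ) i)
      (MM (chA D i) (D.v i) (gF D hD l i) * Xm D (exch D l ψ φ) i)).det = FF D hD l ψ i := by
  rw [FF]
  refine congrArg Matrix.det (Matrix.ext fun r c => ?_)
  rw [mixCols_apply, mixCols_apply]
  split_ifs with h
  · rw [Xm_exch_col, if_pos h]
  · exact mul_col_congr _ _ _ _ _ fun k => by rw [Xm_exch_col, if_neg h]

include hxy hu hu0 hν hD

/-- the computation at a vertex of dimension at least two -/
lemma vertex_big (i : D.I) (hi : ∀ a, D.tgt a ≠ i) {l : B D → ℤ} (φ ψ : B D → Polynomial (Ainv D)) :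
    ∃ z ε : coulomb D x y u, ε * ε = 1 ∧
      (z : L) = DDi D x y l (bE D x y u hD l) (fun _ => 1) (exch D l φ ψ) i *
        DDi D x y l (fun b => u (-dl D b)) (bF D x y hD l) (exch D l ψ φ) i ∧
      z - ε * jA D x y u (EE D hD l φ i * FF D hD l ψ i) ∈ JI D x y u ν := by
  classical
  choose fE hfE using fun k c => entry_E D x y u hxy hD hu hu0 i hi k c
  choose fF hfF using fun k c => entry_F D x y u hxy hD hu hu0 i hi k c
  let Mb : Matrix (Fin (D.v i)) (Fin (D.v i)) (coulomb D x y u) :=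
    Matrix.of fun k c => ⟨mono D x y u (dl D ⟨i, k⟩) (fE k c),
      mono_mem_coulomb D x y u (min_dl D _) _⟩
  let Mc : Matrix (Fin (D.v i)) (Fin (D.v i)) (coulomb D x y u) :=
    Matrix.of fun k c => ⟨mono D x y u (-dl D ⟨i, k⟩) (fF k c),
      mono_neg_mem_coulomb D x y u (min_dl D _) _⟩
  have hwt : ∀ b, wt D ν (dl D b) ≠ 0 := fun b => hν _ (min_dl D b) (dl_ne_zero D b)
  have hMb : Mb.map (coulomb D x y u).subtype = Md (yL D x i) (fun r => algebraMap K L
      (Polynomial.eval₂ (ιK D x y) (x ⟨i, r⟩)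
      (fra D i * ∏ a with D.src a = i, la D hD a)) * u (dl D ⟨i, r⟩)) := by
    ext k c; exact (hfE k c).symm
  have hMc : Mc.map (coulomb D x y u).subtype = Md (yL D x i) (fun r => u (-dl D ⟨i, r⟩)) := by
    ext k c; exact (hfF k c).symm
  have hMM : ∀ M : Matrix (Fin (D.v i)) (Fin (D.v i)) (Ainv D),
      (M.map (jA D x y u)).map (coulomb D x y u).subtype = M.map (ιL D x y (L := L)) := by
    intro M; ext k c; rfl
  have hV := vL_unit D x y hxy i (L := L)
  obtain ⟨z, ε, hε, hz, hJ⟩ := block_identity (coulomb D x y u).subtype (JI D x y u ν) (cols D l i)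
    Mb Mc ((MM (chA D i) (D.v i) (gF D hD l i)).map (jA D x y u))
    ((MM (chA D i) (D.v i) (gE D hD l i)).map (jA D x y u))
    ((Xm D (exch D l ψ φ) i).map (jA D x y u)) ((Xm D (exch D l φ ψ) i).map (jA D x y u))
    (Md (yL D x i) (fun r => bE D x y u hD l ⟨i, r⟩))
    (fun r c => mono_mem_fixI D x y u ν (min_dl D _) (hwt _) _)
    (fun r c => mono_neg_mem_fixI D x y u ν (min_dl D _) (hwt _) _) (by
      rw [hMc, hMM, Md_mul hV, ← Md_gen D x y hxy i]
      congr 1
      funext r
      rw [bE, mul_assoc, ← hu, add_neg_cancel, hu0, mul_one]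
      rfl) (by
      rw [hMb, hMM, ← Md_gen D x y hxy i, Md_mul hV]
      congr 1
      funext r
      rw [← gEF D hD (l := l), Polynomial.eval₂_mul, map_mul, bE]
      rw [show gpol D.src D.tgt (fra D) (la D hD) (⟨i, r⟩ : B D).1 (mOf D l) = gE D hD l i from rfl]
      ring)
  refine ⟨z, ε, hε, ?_, ?_⟩
  · change (coulomb D x y u).subtype z = _
    rw [hz, DDi, DDi, hMM, Md_gen_one D x y hxy i, Matrix.one_mul]
    congr 2
    rw [Matrix.map_mul, hMc, hMM, Matrix.map_mul, hMM, hMM]
    have : Md (yL D x i) (fun r => bF D x y hD l ⟨i, r⟩) =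
        (MM (chA D i) (D.v i) (gF D hD l i)).map (ιL D x y (L := L)) := by
      rw [← Md_gen D x y hxy i]; rfl
    rw [this]
  · convert hJ using 3
    rw [← EE_exch D hD l φ ψ i, ← FF_exch D hD l φ ψ i, map_mul, RingHom.map_det, RingHom.map_det,
      RingHom.mapMatrix_apply, RingHom.mapMatrix_apply, map_mixCols, map_mixCols, Matrix.map_mul,
      Matrix.map_mul]

omit hν in
/-- the computation at a vertex of dimension at most one -/
lemma vertex_small (i : D.I) (hi : D.v i ≤ 1) {l : B D → ℤ} (φ ψ : B D → Polynomial (Ainv D)) :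
    ιL D x y (EE D hD l φ i * FF D hD l ψ i) =
      DDi D x y l (bE D x y u hD l) (fun _ => 1) (exch D l φ ψ) i *
        DDi D x y l (fun b => u (-dl D b)) (bF D x y hD l) (exch D l ψ φ) i := by
  have hV := vL_unit D x y hxy i (L := L)
  have hsub : Subsingleton (Fin (D.v i)) := ⟨fun a b => Fin.ext (by have := a.2; have := b.2; omega)⟩
  have hmix : ∀ {A : Type} [CommRing A] (M N : Matrix (Fin (D.v i)) (Fin (D.v i)) A),
      mixCols Finset.univ M N = M := by
    intro A _ M N; ext r c; rw [mixCols_apply, if_pos (Finset.mem_univ _)]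
  have hmix0 : ∀ {A : Type} [CommRing A] (M N : Matrix (Fin (D.v i)) (Fin (D.v i)) A),
      mixCols ∅ M N = N := by
    intro A _ M N; ext r c; rw [mixCols_apply, if_neg (Finset.notMem_empty _)]
  have hcase : cols D l i = ∅ ∨ cols D l i = Finset.univ := by
    rcases Finset.eq_empty_or_nonempty (cols D l i) with h | ⟨c, hc⟩
    · exact Or.inl h
    · right
      ext c'
      rw [Subsingleton.elim c' c]
      simp [hc]
  have hbF : Md (yL D x i) (fun r => bF D x y hD l ⟨i, r⟩) =
        (MM (chA D i) (D.v i) (gF D hD l i)).map (ιL D x y (L := L)) := by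
      rw [← Md_gen D x y hxy i]; rfl
  have hbE : Md (yL D x i) (fun r => bE D x y u hD l ⟨i, r⟩) * Md (yL D x i)
      (fun r => u (-dl D ⟨i, r⟩)) = (MM (chA D i) (D.v i) (gE D hD l i)).map (ιL D x y (L := L)) := by
    rw [Md_mul hV, ← Md_gen D x y hxy i]
    congr 1
    funext r
    rw [bE, mul_assoc, ← hu, add_neg_cancel, hu0, mul_one]
    rfl
  have hX : ∀ M : Matrix (Fin (D.v i)) (Fin (D.v i)) (Ainv D),
      (M.map (ιL D x y (L := L))).det = ιL D x y M.det := by
    intro M; rw [RingHom.map_det]; rfl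
  rcases hcase with h | h
  · have e1 : Xm D (exch D l φ ψ) i = Xm D φ i := by
      ext r c; rw [Xm_exch_col, h, if_neg (Finset.notMem_empty _)]
    have e2 : Xm D (exch D l ψ φ) i = Xm D ψ i := by
      ext r c; rw [Xm_exch_col, h, if_neg (Finset.notMem_empty _)]
    rw [DDi, DDi, EE, FF, e1, e2, h, hmix0, hmix0, hmix0, hmix0, Md_gen_one D x y hxy i,
      Matrix.one_mul, hbF, ← Matrix.map_mul, hX, hX, map_mul]
  · have e1 : Xm D (exch D l φ ψ) i = Xm D ψ i := by
      ext r c; rw [Xm_exch_col, h, if_pos (Finset.mem_univ _)]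
    have e2 : Xm D (exch D l ψ φ) i = Xm D φ i := by
      ext r c; rw [Xm_exch_col, h, if_pos (Finset.mem_univ _)]
    rw [DDi, DDi, EE, FF, e1, e2, h, hmix, hmix, hmix, hmix, det_mul, det_mul, det_mul, map_mul,
      map_mul, ← hX, ← hX, ← hX, ← hbE, det_mul]
    ring

/-- main computation -/
lemma EE_FF_mem {l : B D → ℤ} (hl : Min D l) (hl0 : l ≠ 0) (κ κ' : Ainv D)
    (φ ψ : B D → Polynomial (Ainv D)) :
    ιL D x y ((κ * ∏ i, EE D hD l φ i) * (κ' * ∏ i, FF D hD l ψ i)) ∈ fixI D x y u ν := by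
  have hv : ∀ i, ∃ z ε : coulomb D x y u, ε * ε = 1 ∧
      (z : L) = DDi D x y l (bE D x y u hD l) (fun _ => 1) (exch D l φ ψ) i *
        DDi D x y l (fun b => u (-dl D b)) (bF D x y hD l) (exch D l ψ φ) i ∧
      z - ε * jA D x y u (EE D hD l φ i * FF D hD l ψ i) ∈ JI D x y u ν := by
    intro i
    by_cases hi : ∃ a, D.tgt a = i
    · obtain ⟨a, ha⟩ := hi
      refine ⟨jA D x y u (EE D hD l φ i * FF D hD l ψ i), 1, one_mul _, ?_, ?_⟩
      · rw [jA_coe]
        exact vertex_small D x y u hxy hD hu hu0 i (ha ▸ hD a) φ ψ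
      · rw [one_mul, sub_self]; exact Ideal.zero_mem _
    · push Not at hi
      exact vertex_big D x y u ν hxy hD hu hu0 hν i hi φ ψ
  choose z ε hε hz hJ using hv
  obtain ⟨f, hf⟩ := DD_mono D x y u hxy l l (min_sub D hl)
    (bE D x y u hD l) (fun _ => 1) (hβE D x y u hu hu0 hD hl) 1 (exch D l φ ψ)
  obtain ⟨g, hg⟩ := DD_mono D x y u hxy l (-l) (min_sub_neg D hl)
    (fun b => u (-dl D b)) (bF D x y hD l) (hβF D x y u hu hu0 hD hl) 1 (exch D l ψ φ)
  rw [map_one, one_mul] at hf hg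
  -- the product of the `z i` lies in the ideal
  have h1 : ((∏ i, z i : coulomb D x y u) : L) = mono D x y u l f * mono D x y u (-l) g := by
    rw [← hf, ← hg, ← Finset.prod_mul_distrib]
    have : ((∏ i, z i : coulomb D x y u) : L) = ∏ i, (z i : L) :=
      map_prod (coulomb D x y u).subtype _ _
    rw [this]
    exact Finset.prod_congr rfl fun i _ => hz i
  have h2 : (∏ i, z i) ∈ JI D x y u ν := by
    rw [mem_JI, h1]
    exact fixI_mul D x y u ν (mono_mem_coulomb D x y u hl f)
      (mono_neg_mem_fixI D x y u ν hl (hν l hl hl0) g)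
  have h3 : (∏ i, z i) - ∏ i, (ε i * jA D x y u (EE D hD l φ i * FF D hD l ψ i)) ∈ JI D x y u ν := by
    rw [← Ideal.Quotient.eq, map_prod, map_prod]
    exact Finset.prod_congr rfl fun i _ => Ideal.Quotient.eq.2 (hJ i)
  have h4 : (∏ i, (ε i * jA D x y u (EE D hD l φ i * FF D hD l ψ i))) ∈ JI D x y u ν := by
    have := Ideal.sub_mem _ h2 h3
    rwa [sub_sub_cancel] at this
  have h5 : jA D x y u ((κ * ∏ i, EE D hD l φ i) * (κ' * ∏ i, FF D hD l ψ i)) =
      (jA D x y u (κ * κ') * ∏ i, ε i) *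
        ∏ i, (ε i * jA D x y u (EE D hD l φ i * FF D hD l ψ i)) := by
    have h6 : (∏ i, ε i) * ∏ i, ε i = 1 := by
      rw [← Finset.prod_mul_distrib]; exact Finset.prod_eq_one fun i _ => hε i
    have h7 : jA D x y u (∏ i, (EE D hD l φ i * FF D hD l ψ i)) =
        ∏ i, jA D x y u (EE D hD l φ i * FF D hD l ψ i) := map_prod _ _ _
    have h8 : (κ * ∏ i, EE D hD l φ i) * (κ' * ∏ i, FF D hD l ψ i) =
        (κ * κ') * ∏ i, (EE D hD l φ i * FF D hD l ψ i) := by
      rw [Finset.prod_mul_distrib]; ring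
    rw [h8, map_mul, h7, Finset.prod_mul_distrib]
    linear_combination (-jA D x y u (κ * κ') *
      ∏ i, jA D x y u (EE D hD l φ i * FF D hD l ψ i)) * h6
  have h9 := Ideal.mul_mem_left _ (jA D x y u (κ * κ') * ∏ i, ε i) h4
  rw [← h5] at h9
  exact h9

end

end Vale.Agent.P291.G
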