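import Vale.Agent.P291.GPartA3
import Vale.Agent.P291.GGrade

set_option autoImplicit false
set_option linter.unusedSectionVars false

/-! Classes as elements of products of determinantal ideals. -/

namespace Vale.Agent.P291.G

open MvPolynomial Matrix Vale.Agent.P291.GDet Vale.Agent.P291.GVdm Vale.Agent.P291.GChain

variable (D : QData)

section
variable {K : Type} [Field K] [Algebra ℂ K] (x : B D → K) (y : Fin D.rk → K)

lemma cls_orbit (l : B D → ℤ) (f : P D) (τ : W D) :
    cls D x y (l ∘ perm D τ) f = cls D x y l (actP D τ f) := by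
  rw [cls, cls, ← Equiv.sum_comp (Equiv.mulRight τ)]
  refine Finset.sum_congr rfl fun σ _ => ?_
  have h1 : x ∘ perm D ((Equiv.mulRight τ) σ) = (x ∘ perm D σ) ∘ perm D τ := by
    funext b
    rw [Equiv.coe_mulRight, Function.comp, Function.comp, Function.comp, ← perm_mul]
  rw [h1, co, co, pol_act, pol_eq]
  have h2 := eul_reindex D (x ∘ perm D σ) y l τ
  have h3 := rts_reindex D (x ∘ perm D σ) l τ
  change _ * eul D (fun b => (x ∘ perm D σ) (perm D τ b)) y (fun b => l (perm D τ b)) /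
    rts D (fun b => (x ∘ perm D σ) (perm D τ b)) (fun b => l (perm D τ b)) = _
  rw [h2, h3]

lemma cls_smul (l : B D → ℤ) (r : Ainv D) (f : P D) :
    ιK D x y r * cls D x y l f = cls D x y l ((r : P D) * f) := by
  rw [cls, cls, Finset.mul_sum]
  refine Finset.sum_congr rfl fun σ _ => ?_
  have h1 : pol D (x ∘ perm D σ) y ((r : P D) * f) = ιK D x y r * pol D (x ∘ perm D σ) y f := by
    rw [pol_act, map_mul, map_mul, (mem_Ainv D).1 r.2 σ, ← pol_act, ιK_apply]
  rw [co, co, h1]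
  ring

lemma cls_mono (l : B D → ℤ) (f : P D) :
    cls D x y l f = mono D x y (fun _ => (1 : K)) l f := by
  rw [cls, mono]
  exact Finset.sum_congr rfl fun σ _ => by rw [smul_eq_mul, mul_one]

lemma Kdec_mul (r : Ainv D) {z : K} (hz : z ∈ Kdec D x y) : ιK D x y r * z ∈ Kdec D x y := by
  induction hz using AddSubgroup.closure_induction with
  | mem z hz =>
    obtain ⟨l, f, g, hl, hl0, rfl⟩ := hz
    rw [← mul_assoc, cls_smul]
    exact AddSubgroup.subset_closure ⟨l, _, g, hl, hl0, rfl⟩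
  | zero => rw [mul_zero]; exact AddSubgroup.zero_mem _
  | add a b _ _ ha hb => rw [mul_add]; exact AddSubgroup.add_mem _ ha hb
  | neg a _ ha => rw [mul_neg]; exact AddSubgroup.neg_mem _ ha

/-- the ideal `Kdec` in the invariants -/
noncomputable def KI : Ideal (Ainv D) where
  carrier := {r | ιK D x y r ∈ Kdec D x y}
  add_mem' := by
    intro a b ha hb
    change ιK D x y (a + b) ∈ Kdec D x y
    rw [map_add]
    exact AddSubgroup.add_mem _ ha hb
  zero_mem' := by
    change ιK D x y 0 ∈ Kdec D x y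
    rw [map_zero]
    exact AddSubgroup.zero_mem _
  smul_mem' := by
    intro c a ha
    change ιK D x y (c * a) ∈ Kdec D x y
    rw [map_mul]
    exact Kdec_mul D x y c ha

lemma mem_KI (r : Ainv D) : r ∈ KI D x y ↔ ιK D x y r ∈ Kdec D x y := Iff.rfl

lemma exists_perm {l l' : B D → ℤ} (hl : Min D l) (hl' : Min D l')
    (h : ∀ i, mOf D l i = mOf D l' i) : ∃ τ : W D, l' = l ∘ perm D τ := by
  classical
  have h1 : ∀ i, ∃ e : Equiv.Perm (Fin (D.v i)), ∀ r, l' ⟨i, r⟩ = 1 ↔ l ⟨i, e r⟩ = 1 := by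
    intro i
    have hc : (Finset.univ.filter fun r : Fin (D.v i) => l' ⟨i, r⟩ = 1).card =
        (Finset.univ.filter fun r : Fin (D.v i) => l ⟨i, r⟩ = 1).card := (h i).symm
    have hc2 : Fintype.card {r : Fin (D.v i) // l' ⟨i, r⟩ = 1} =
        Fintype.card {r : Fin (D.v i) // l ⟨i, r⟩ = 1} := by
      rw [Fintype.card_subtype, Fintype.card_subtype]; exact hc
    let e0 : {r : Fin (D.v i) // l' ⟨i, r⟩ = 1} ≃ {r : Fin (D.v i) // l ⟨i, r⟩ = 1} :=
      Fintype.equivOfCardEq hc2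
    refine ⟨e0.extendSubtype, fun r => ⟨fun hr => ?_, fun hr => ?_⟩⟩
    · exact e0.extendSubtype_mem r hr
    · by_contra hr'
      exact e0.extendSubtype_not_mem r hr' hr
  choose e he using h1
  refine ⟨e, ?_⟩
  funext ⟨i, r⟩
  have h2 := he i r
  have h3 := hl' ⟨i, r⟩
  have h4 := hl ⟨i, e i r⟩
  change l' ⟨i, r⟩ = l ⟨i, e i r⟩
  by_cases h5 : l' ⟨i, r⟩ = 1
  · rw [h5, h2.1 h5]
  · have h6 : ¬ l ⟨i, e i r⟩ = 1 := fun h => h5 (h2.2 h)
    rw [h3.resolve_right h5, h4.resolve_right h6]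

variable (hxy : AlgebraicIndependent ℂ (Sum.elim x y)) (hD : ∀ a, D.v (D.tgt a) ≤ 1)

include hxy in
lemma ιK_inj : Function.Injective (ιK D x y) := by
  intro r s h
  exact Subtype.ext (EV_inj D x y hxy h)

include hxy in
lemma mem_R_iff (z : K) : z ∈ R D x y ↔ ∃ r : Ainv D, ιK D x y r = z := by
  constructor
  · rintro ⟨f, hf⟩
    have h1 : f ∈ Ainv D := by
      rw [mem_Ainv]
      intro σ
      apply EV_inj D x y hxy
      rw [← pol_act, hf σ, ← hf 1, pol_act]
      have h2 : actP D 1 f = f := by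
        have h3 : actP D 1 = AlgHom.id ℂ (P D) := by
          apply MvPolynomial.algHom_ext
          intro b
          rw [actP, rename_X, AlgHom.id_apply]
          cases b <;> rfl
        rw [h3]; rfl
      rw [h2]
    refine ⟨⟨f, h1⟩, ?_⟩
    have h2 := hf 1
    rw [pol_act, (mem_Ainv D).1 h1 1] at h2
    exact h2
  · rintro ⟨r, rfl⟩
    exact R_of_inv D x y r

/-- the matrices of the algebra of functions -/
noncomputable def ΦA (i : D.I) :
    Polynomial (Ainv D) →* Matrix (Fin (D.v i)) (Fin (D.v i)) (Ainv D) :=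
  MMhom (ιK D x y) (ιK_inj D x y hxy) (chA_monic D i) (chA_deg D i)
    (y := fun r => x ⟨i, r⟩) (IsUnit.mk0 _ (vK_unit D x y hxy i)) (eval_chA D x y i)

lemma ΦA_apply (i : D.I) (g : Polynomial (Ainv D)) :
    ΦA D x y hxy i g = MM (chA D i) (D.v i) g := rfl

/-- product of determinantal ideals, positive side -/
noncomputable def LE (m : D.I → ℕ) : Ideal (Ainv D) :=
  Lm D.src D.tgt (ΦA D x y hxy) (fra D) (la D hD) m

/-- product of determinantal ideals, negative side -/
noncomputable def LF (m : D.I → ℕ) : Ideal (Ainv D) :=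
  Lm D.src D.tgt (ΦA D x y hxy) 1 (la D hD) m

lemma EE_mem (l : B D → ℤ) (φ : B D → Polynomial (Ainv D)) :
    ∏ i, EE D hD l φ i ∈ LE D x y hxy hD (mOf D l) := by
  rw [LE, Lm]
  refine Ideal.prod_mem_prod fun i _ => ?_
  exact mem_detIdeal _ (cols D l i) _ _ rfl

lemma mixCols_compl {A : Type} [CommRing A] {n : Type} [Fintype n] [DecidableEq n]
    (S : Finset n) (M N : Matrix n n A) : mixCols S M N = mixCols Sᶜ N M := by
  ext r c
  rw [mixCols_apply, mixCols_apply]
  by_cases h : c ∈ S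
  · rw [if_pos h, if_neg (by simpa using h)]
  · rw [if_neg h, if_pos (by simpa using h)]

lemma FF_mem (l : B D → ℤ) (φ : B D → Polynomial (Ainv D)) :
    ∏ i, FF D hD l φ i ∈ LF D x y hxy hD (fun i => D.v i - mOf D l i) := by
  rw [LF, Lm]
  refine Ideal.prod_mem_prod fun i _ => ?_
  rw [FF, mixCols_compl]
  refine mem_detIdeal _ (cols D l i)ᶜ _ _ ?_
  rw [Finset.card_compl, Fintype.card_fin]
  rfl

/-- the additive group of classes, positive side -/
lemma cls_clos_E {l : B D → ℤ} (hl : Min D l) (f : P D) (hxy : AlgebraicIndependent ℂ (Sum.elim x y)) :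
    cls D x y l f ∈ AddSubgroup.closure {z : K | ∃ (κ : Ainv D) (φ : B D → Polynomial (Ainv D)),
      z = ιK D x y (κ * ∏ i, EE D hD l φ i)} := by
  rw [cls_mono]
  have h := mono_mem D x y (fun _ => (1 : K)) hxy l l (min_sub D hl)
    (bE D x y (fun _ => (1 : K)) hD l) (fun _ => 1)
    (hβE D x y (fun _ => (1 : K)) (fun _ _ => (one_mul 1).symm) rfl hD hl) f
  refine AddSubgroup.closure_mono ?_ h
  rintro z ⟨κ, φ, rfl⟩
  refine ⟨κ, φ, ?_⟩
  rw [map_mul, map_prod]
  congr 1
  exact Finset.prod_congr rfl fun i _ => DDi_E_one D x y hxy hD l φ i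

lemma cls_clos_F {l : B D → ℤ} (hl : Min D l) (f : P D) (hxy : AlgebraicIndependent ℂ (Sum.elim x y)) :
    cls D x y (-l) f ∈ AddSubgroup.closure {z : K | ∃ (κ : Ainv D) (φ : B D → Polynomial (Ainv D)),
      z = ιK D x y (κ * ∏ i, FF D hD l φ i)} := by
  rw [cls_mono]
  have h := mono_mem D x y (fun _ => (1 : K)) hxy l (-l) (min_sub_neg D hl)
    (fun _ => 1) (bF D x y hD l)
    (hβF D x y (fun _ => (1 : K)) (fun _ _ => (one_mul 1).symm) rfl hD hl) f
  refine AddSubgroup.closure_mono ?_ h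
  rintro z ⟨κ, φ, rfl⟩
  refine ⟨κ, φ, ?_⟩
  rw [map_mul, map_prod]
  congr 1
  exact Finset.prod_congr rfl fun i _ => DDi_F_one D x y hxy hD l φ i

lemma cls_ideal_E {l : B D → ℤ} (hl : Min D l) (f : P D) :
    ∃ r ∈ LE D x y hxy hD (mOf D l), ιK D x y r = cls D x y l f := by
  have h := cls_clos_E D x y hD hl f hxy
  generalize cls D x y l f = z0 at h ⊢
  induction h using AddSubgroup.closure_induction with
  | mem z hz =>
    obtain ⟨κ, φ, rfl⟩ := hz
    exact ⟨_, Ideal.mul_mem_left _ _ (EE_mem D x y hxy hD l φ), rfl⟩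
  | zero => exact ⟨0, Ideal.zero_mem _, map_zero _⟩
  | add a b _ _ ha hb =>
    obtain ⟨r, hr, hr'⟩ := ha
    obtain ⟨s, hs, hs'⟩ := hb
    exact ⟨r + s, Ideal.add_mem _ hr hs, by rw [map_add, hr', hs']⟩
  | neg a _ ha =>
    obtain ⟨r, hr, hr'⟩ := ha
    exact ⟨-r, Ideal.neg_mem_iff _ |>.2 hr, by rw [map_neg, hr']⟩

lemma cls_ideal_F {l : B D → ℤ} (hl : Min D l) (f : P D) :
    ∃ r ∈ LF D x y hxy hD (fun i => D.v i - mOf D l i), ιK D x y r = cls D x y (-l) f := by
  have h := cls_clos_F D x y hD hl f hxy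
  generalize cls D x y (-l) f = z0 at h ⊢
  induction h using AddSubgroup.closure_induction with
  | mem z hz =>
    obtain ⟨κ, φ, rfl⟩ := hz
    exact ⟨_, Ideal.mul_mem_left _ _ (FF_mem D x y hxy hD l φ), rfl⟩
  | zero => exact ⟨0, Ideal.zero_mem _, map_zero _⟩
  | add a b _ _ ha hb =>
    obtain ⟨r, hr, hr'⟩ := ha
    obtain ⟨s, hs, hs'⟩ := hb
    exact ⟨r + s, Ideal.add_mem _ hr hs, by rw [map_add, hr', hs']⟩
  | neg a _ ha =>
    obtain ⟨r, hr, hr'⟩ := ha
    exact ⟨-r, Ideal.neg_mem_iff _ |>.2 hr, by rw [map_neg, hr']⟩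

/-- products of determinants are classes, positive side -/
lemma EE_cls {l : B D → ℤ} (hl : Min D l) (κ : Ainv D) (φ : B D → Polynomial (Ainv D))
    (hxy : AlgebraicIndependent ℂ (Sum.elim x y)) :
    ∃ f : P D, ιK D x y (κ * ∏ i, EE D hD l φ i) = cls D x y l f := by
  obtain ⟨f, hf⟩ := DD_mono D x y (fun _ => (1 : K)) hxy l l (min_sub D hl)
    (bE D x y (fun _ => (1 : K)) hD l) (fun _ => 1)
    (hβE D x y (fun _ => (1 : K)) (fun _ _ => (one_mul 1).symm) rfl hD hl) κ φ
  refine ⟨f, ?_⟩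
  rw [cls_mono, ← hf, map_mul, map_prod]
  congr 1
  exact Finset.prod_congr rfl fun i _ => (DDi_E_one D x y hxy hD l φ i).symm

lemma FF_cls {l : B D → ℤ} (hl : Min D l) (κ : Ainv D) (φ : B D → Polynomial (Ainv D))
    (hxy : AlgebraicIndependent ℂ (Sum.elim x y)) :
    ∃ f : P D, ιK D x y (κ * ∏ i, FF D hD l φ i) = cls D x y (-l) f := by
  obtain ⟨f, hf⟩ := DD_mono D x y (fun _ => (1 : K)) hxy l (-l) (min_sub_neg D hl)
    (fun _ => 1) (bF D x y hD l)
    (hβF D x y (fun _ => (1 : K)) (fun _ _ => (one_mul 1).symm) rfl hD hl) κ φ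
  refine ⟨f, ?_⟩
  rw [cls_mono, ← hf, map_mul, map_prod]
  congr 1
  exact Finset.prod_congr rfl fun i _ => (DDi_F_one D x y hxy hD l φ i).symm

/-- the indicator of a family of sets -/
noncomputable def ind (T : (i : D.I) → Finset (Fin (D.v i))) (b : B D) : ℤ :=
  if b.2 ∈ T b.1 then 1 else 0

lemma ind_min (T : (i : D.I) → Finset (Fin (D.v i))) : Min D (ind D T) := by
  intro b
  rw [ind]
  split_ifs
  · exact Or.inr rfl
  · exact Or.inl rfl

lemma ind_cols (T : (i : D.I) → Finset (Fin (D.v i))) (i : D.I) : cols D (ind D T) i = T i := by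
  ext r
  rw [cols, Finset.mem_filter, ind]
  by_cases h : r ∈ T i <;> simp [h]

lemma ind_mOf (T : (i : D.I) → Finset (Fin (D.v i))) (i : D.I) :
    mOf D (ind D T) i = (T i).card := by
  rw [← ind_cols D T i]; rfl

/-- the hypothesis of the chain lemma -/
lemma LE_LF_le (m : D.I → ℕ) (hm : ∀ i, m i ≤ D.v i) (hm0 : m ≠ 0) :
    LE D x y hxy hD m * LF D x y hxy hD (fun i => D.v i - m i) ≤ KI D x y := by
  classical
  rw [LE, LF, Lm, Lm]
  unfold detIdeal
  rw [Ideal.prod_span, Ideal.prod_span, Ideal.span_mul_span', Ideal.span_le]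
  rintro z hz
  rw [Set.mem_mul] at hz
  obtain ⟨a, ha, b, hb, rfl⟩ := hz
  rw [Set.mem_finsetProd] at ha hb
  obtain ⟨a', ha', rfl⟩ := ha
  obtain ⟨b', hb', rfl⟩ := hb
  choose T X hT hX using fun i => ha' (Finset.mem_univ i)
  choose T' X' hT' hX' using fun i => hb' (Finset.mem_univ i)
  -- positive side
  set l : B D → ℤ := ind D T with hl
  set l' : B D → ℤ := ind D fun i => (T' i)ᶜ with hl'
  have hml : mOf D l = m := by
    funext i; rw [hl, ind_mOf]; exact hT i
  have hml' : mOf D l' = m := by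
    funext i
    rw [hl', ind_mOf, Finset.card_compl, Fintype.card_fin, hT' i]
    have := hm i
    omega
  have hlm : Min D l := ind_min D T
  have hlm' : Min D l' := ind_min D _
  have hl0 : l ≠ 0 := by
    intro h0
    apply hm0
    funext i
    rw [← hml, mOf, Pi.zero_apply, Finset.card_eq_zero, Finset.filter_eq_empty_iff]
    intro r _
    rw [h0]
    exact zero_ne_one
  choose φ hφ using fun i => colM_surj (chA_monic D i) (chA_deg D i) (X i)
  choose ψ hψ using fun i => colM_surj (chA_monic D i) (chA_deg D i) (X' i)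
  have h1 : ∏ i, a' i = ∏ i, EE D hD l (fun b => φ b.1 b.2) i := by
    refine Finset.prod_congr rfl fun i _ => ?_
    have hXm : Xm D (fun b => φ b.1 b.2) i = X i := hφ i
    rw [hX i, EE, hl, ind_cols, hXm, gE, ← hl, hml]
    rfl
  have h2 : ∏ i, b' i = ∏ i, FF D hD l' (fun b => ψ b.1 b.2) i := by
    refine Finset.prod_congr rfl fun i _ => ?_
    have hXm : Xm D (fun b => ψ b.1 b.2) i = X' i := hψ i
    rw [hX' i, FF, hl', ind_cols, hXm, mixCols_compl (T' i)ᶜ, compl_compl, gF, ← hl', hml']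
    rfl
  obtain ⟨f, hf⟩ := EE_cls D x y hD hlm 1 (fun b => φ b.1 b.2) hxy
  obtain ⟨g, hg⟩ := FF_cls D x y hD hlm' 1 (fun b => ψ b.1 b.2) hxy
  rw [one_mul, ← h1] at hf
  rw [one_mul, ← h2] at hg
  obtain ⟨τ, hτ⟩ := exists_perm D hlm hlm' (fun i => by rw [hml, hml'])
  have hneg : -l' = (-l) ∘ perm D τ := by rw [hτ]; rfl
  rw [hneg, cls_orbit] at hg
  change _ ∈ KI D x y
  rw [mem_KI, map_mul, hf, hg]
  exact AddSubgroup.subset_closure ⟨l, _, _, hlm, hl0, rfl⟩

end

end Vale.Agent.P291.G
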