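import Mathlib

set_option autoImplicit false
set_option linter.unusedSectionVars false

/-! Linear forms `X b - X b'` in polynomial rings: relative primality and alternating polynomials. -/

namespace Vale.Agent.P291.GUfd

open MvPolynomial

variable {τ : Type} [DecidableEq τ]

lemma not_dvd {b b' c c' : τ} (hc : c ≠ c')
    (hne : ¬ ((c = b ∧ c' = b') ∨ (c = b' ∧ c' = b))) :
    ¬ (X b - X b' : MvPolynomial τ ℂ) ∣ X c - X c' := by
  rintro ⟨q, hq⟩
  let pt : τ → ℂ := fun t => if t = b ∨ t = b' then 0 else if t = c then 1 else 2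
  have h1 := congrArg (eval pt) hq
  rw [map_sub, map_mul, map_sub, eval_X, eval_X, eval_X, eval_X] at h1
  have h2 : pt b = 0 := by simp [pt]
  have h3 : pt b' = 0 := by simp [pt]
  rw [h2, h3, sub_zero, zero_mul] at h1
  by_cases hcb : c = b ∨ c = b'
  · have hc'b : ¬ (c' = b ∨ c' = b') := by
      rintro (h | h)
      · rcases hcb with h' | h'
        · exact hc (h'.trans h.symm)
        · exact hne (Or.inr ⟨h', h⟩)
      · rcases hcb with h' | h'
        · exact hne (Or.inl ⟨h', h⟩)
        · exact hc (h'.trans h.symm)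
    have h4 : pt c = 0 := by simp [pt, hcb]
    have h5 : pt c' = 2 := by simp [pt, hc'b, hc.symm]
    rw [h4, h5] at h1
    norm_num at h1
  · have h4 : pt c = 1 := by simp [pt, hcb]
    by_cases hc'b : c' = b ∨ c' = b'
    · have h5 : pt c' = 0 := by simp [pt, hc'b]
      rw [h4, h5] at h1
      norm_num at h1
    · have h5 : pt c' = 2 := by simp [pt, hc'b, hc.symm]
      rw [h4, h5] at h1
      norm_num at h1

lemma irreducible_sub {b b' : τ} (h : b ≠ b') : Irreducible (X b - X b' : MvPolynomial τ ℂ) := by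
  have hc : coeff (Finsupp.single b 1) (X b - X b' : MvPolynomial τ ℂ) = 1 := by
    rw [coeff_sub, coeff_X, coeff_X, if_pos rfl, if_neg, sub_zero]
    rw [Finsupp.single_left_inj Nat.one_ne_zero]
    exact h.symm
  apply irreducible_of_totalDegree_eq_one
  · apply le_antisymm
    · exact (totalDegree_sub _ _).trans (by simp)
    · rw [← not_lt, Nat.lt_one_iff, totalDegree_eq_zero_iff]
      intro h0
      have := h0 (Finsupp.single b 1) (by rw [mem_support_iff, hc]; exact one_ne_zero) b
      simp at this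
  · intro x hx
    have := hx (Finsupp.single b 1)
    rw [hc] at this
    exact isUnit_of_dvd_one this

lemma isRelPrime_sub {b b' c c' : τ} (h : b ≠ b') (hc : c ≠ c')
    (hne : ¬ ((c = b ∧ c' = b') ∨ (c = b' ∧ c' = b))) :
    IsRelPrime (X b - X b' : MvPolynomial τ ℂ) (X c - X c') :=
  (irreducible_sub h).isRelPrime_iff_not_dvd.2 (not_dvd hc hne)

lemma dvd_of_alt {b b' : τ} (p : MvPolynomial τ ℂ)
    (h : rename (Equiv.swap b b') p = -p) : (X b - X b' : MvPolynomial τ ℂ) ∣ p := by
  rw [← Ideal.mem_span_singleton]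
  set I : Ideal (MvPolynomial τ ℂ) := Ideal.span {X b - X b'} with hI
  have hb : (Ideal.Quotient.mkₐ ℂ I) (X b) = (Ideal.Quotient.mkₐ ℂ I) (X b') := by
    rw [Ideal.Quotient.mkₐ_eq_mk, Ideal.Quotient.eq]
    exact Ideal.mem_span_singleton_self _
  have h1 : (Ideal.Quotient.mkₐ ℂ I).comp (rename (Equiv.swap b b')) = Ideal.Quotient.mkₐ ℂ I := by
    apply MvPolynomial.algHom_ext
    intro t
    rw [AlgHom.comp_apply, rename_X]
    by_cases h2 : t = b
    · subst h2; rw [Equiv.swap_apply_left, hb]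
    by_cases h3 : t = b'
    · subst h3; rw [Equiv.swap_apply_right, hb]
    · rw [Equiv.swap_apply_of_ne_of_ne h2 h3]
  have h4 : (Ideal.Quotient.mkₐ ℂ I) (rename (Equiv.swap b b') p) = (Ideal.Quotient.mkₐ ℂ I) p :=
    DFunLike.congr_fun h1 p
  rw [h, Ideal.Quotient.mkₐ_eq_mk, Ideal.Quotient.eq] at h4
  have h5 : p = C (-1 / 2 : ℂ) * (-p - p) := by
    have : (-p - p : MvPolynomial τ ℂ) = C (-2 : ℂ) * p := by
      rw [map_neg]
      have : (C (2 : ℂ) : MvPolynomial τ ℂ) = 2 := map_ofNat C 2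
      rw [this]; ring
    rw [this, ← mul_assoc, ← C_mul]
    norm_num
  rw [h5]
  exact Ideal.mul_mem_left _ _ h4

end Vale.Agent.P291.GUfd
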