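import Vale.Agent.P291.GDefs
import Vale.Agent.P291.GUfd

set_option autoImplicit false
set_option linter.unusedSectionVars false

/-! Symmetrization: polynomial level facts. -/

namespace Vale.Agent.P291.G

open MvPolynomial Matrix

variable (D : QData)

/-- the variables -/
noncomputable def XX (b : B D) : P D := X (Sum.inl b)
/-- the flavor variables -/
noncomputable def YY (j : Fin D.rk) : P D := X (Sum.inr j)

/-- action of the Weyl group on polynomials -/
noncomputable def actP (σ : W D) : P D →ₐ[ℂ] P D := rename (Sum.map (perm D σ) id)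

lemma perm_apply (σ : W D) (i : D.I) (r : Fin (D.v i)) : perm D σ ⟨i, r⟩ = ⟨i, σ i r⟩ := rfl

lemma perm_fst (σ : W D) (b : B D) : (perm D σ b).1 = b.1 := rfl

lemma perm_mul (σ τ : W D) (b : B D) : perm D (σ * τ) b = perm D σ (perm D τ b) := rfl

lemma perm_inv (σ : W D) : perm D σ⁻¹ = (perm D σ).symm := rfl

lemma actP_XX (σ : W D) (b : B D) : actP D σ (XX D b) = XX D (perm D σ b) := by
  rw [actP, XX, rename_X]; rfl

lemma actP_YY (σ : W D) (j : Fin D.rk) : actP D σ (YY D j) = YY D j := by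
  rw [actP, YY, rename_X]; rfl

lemma actP_mul (σ τ : W D) (f : P D) : actP D (σ * τ) f = actP D σ (actP D τ f) := by
  rw [actP, actP, actP, rename_rename]
  congr 2
  funext b
  cases b <;> rfl

/-- sign character of the Weyl group -/
noncomputable def sgn (σ : W D) : ℤ := ∏ i, (Equiv.Perm.sign (σ i) : ℤ)

lemma sgn_mul (σ τ : W D) : sgn D (σ * τ) = sgn D σ * sgn D τ := by
  rw [sgn, sgn, sgn, ← Finset.prod_mul_distrib]
  refine Finset.prod_congr rfl fun i _ => ?_
  rw [Pi.mul_apply, Equiv.Perm.sign_mul, Units.val_mul]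

lemma sgn_sq (σ : W D) : sgn D σ * sgn D σ = 1 := by
  rw [sgn, ← Finset.prod_mul_distrib]
  refine Finset.prod_eq_one fun i _ => ?_
  rw [← Units.val_mul, Int.units_mul_self, Units.val_one]

/-- product of the Vandermonde determinants -/
noncomputable def Del : P D := ∏ i, (vandermonde fun r : Fin (D.v i) => XX D ⟨i, r⟩).det

lemma act_Del (σ : W D) : actP D σ (Del D) = (sgn D σ : P D) * Del D := by
  rw [Del, map_prod, sgn, Int.cast_prod, ← Finset.prod_mul_distrib]
  refine Finset.prod_congr rfl fun i _ => ?_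
  rw [AlgHom.map_det]
  have : (actP D σ).mapMatrix (vandermonde fun r : Fin (D.v i) => XX D ⟨i, r⟩) =
      (vandermonde fun r : Fin (D.v i) => XX D ⟨i, r⟩).submatrix (σ i) id := by
    ext r c
    rw [AlgHom.mapMatrix_apply, Matrix.map_apply, vandermonde_apply, map_pow, actP_XX,
      submatrix_apply, vandermonde_apply]
    rfl
  rw [this, det_permute]

/-- index set of the pairs -/
noncomputable def pairs : Finset (Σ i : D.I, Fin (D.v i) × Fin (D.v i)) :=
  Finset.univ.filter fun p => p.2.1 < p.2.2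

lemma Del_eq : Del D = ∏ p ∈ pairs D, (XX D ⟨p.1, p.2.2⟩ - XX D ⟨p.1, p.2.1⟩) := by
  rw [Del, pairs, Finset.prod_filter, ← Finset.univ_sigma_univ, Finset.prod_sigma]
  refine Finset.prod_congr rfl fun i _ => ?_
  rw [det_vandermonde, ← Finset.univ_product_univ, Finset.prod_product]
  refine Finset.prod_congr rfl fun r _ => ?_
  rw [← Finset.prod_filter]
  refine Finset.prod_congr ?_ fun _ _ => rfl
  ext s
  simp

lemma Del_ne_zero : Del D ≠ 0 := by
  rw [Del_eq, Finset.prod_ne_zero_iff]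
  intro p hp
  rw [pairs, Finset.mem_filter] at hp
  rw [sub_ne_zero]
  intro h
  have h2 := X_injective (R := ℂ) h
  simp only [Sum.inl.injEq, Sigma.mk.injEq, heq_eq_eq, true_and] at h2
  rw [h2] at hp
  exact lt_irrefl _ hp.2

lemma isRelPrime_XX {b b' c c' : B D} (h : b ≠ b') (hc : c ≠ c')
    (hne : ¬ ((c = b ∧ c' = b') ∨ (c = b' ∧ c' = b))) :
    IsRelPrime (XX D b - XX D b') (XX D c - XX D c') := by
  refine GUfd.isRelPrime_sub (fun e => h (Sum.inl_injective e)) (fun e => hc (Sum.inl_injective e)) ?_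
  rintro (⟨h1, h2⟩ | ⟨h1, h2⟩)
  · exact hne (Or.inl ⟨Sum.inl_injective h1, Sum.inl_injective h2⟩)
  · exact hne (Or.inr ⟨Sum.inl_injective h1, Sum.inl_injective h2⟩)

/-- if each linear factor divides `f` then so does `Del` -/
lemma Del_dvd (f : P D) (h : ∀ (i : D.I) (r s : Fin (D.v i)), r < s →
    (XX D ⟨i, s⟩ - XX D ⟨i, r⟩) ∣ f) : Del D ∣ f := by
  rw [Del_eq]
  refine Finset.prod_dvd_of_isRelPrime ?_ fun p hp => ?_
  · intro p hp q hq hpq
    have hp' : p.2.1 < p.2.2 := (Finset.mem_filter.1 hp).2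
    have hq' : q.2.1 < q.2.2 := (Finset.mem_filter.1 hq).2
    obtain ⟨i, r, s⟩ := p
    obtain ⟨j, r', s'⟩ := q
    simp only at hp' hq'
    refine isRelPrime_XX D ?_ ?_ ?_
    · intro h; rw [Sigma.mk.injEq] at h
      exact absurd (eq_of_heq h.2) (ne_of_gt hp')
    · intro h; rw [Sigma.mk.injEq] at h
      exact absurd (eq_of_heq h.2) (ne_of_gt hq')
    · by_cases hij : i = j
      · subst hij
        simp only [Sigma.mk.injEq, heq_eq_eq, true_and, ne_eq, Prod.mk.injEq, not_and] at hpq ⊢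
        rintro (⟨h1, h2⟩ | ⟨h1, h2⟩)
        · exact hpq h2.symm h1.symm
        · rw [h1, h2] at hq'
          exact lt_asymm hp' hq'
      · rintro (⟨h1, -⟩ | ⟨h1, -⟩)
        · rw [Sigma.mk.injEq] at h1; exact hij h1.1.symm
        · rw [Sigma.mk.injEq] at h1; exact hij h1.1.symm
  · exact h _ _ _ (Finset.mem_filter.1 hp).2

lemma lin_dvd_Del' (i : D.I) (r s : Fin (D.v i)) (h2 : r < s) :
    (XX D ⟨i, s⟩ - XX D ⟨i, r⟩) ∣ Del D := by
  rw [Del_eq]
  have h3 : (⟨i, r, s⟩ : Σ i : D.I, Fin (D.v i) × Fin (D.v i)) ∈ pairs D :=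
    Finset.mem_filter.2 ⟨Finset.mem_univ _, h2⟩
  classical
  rw [← Finset.mul_prod_erase _ _ h3]
  exact Dvd.intro _ rfl

lemma lin_dvd_Del (i : D.I) (r s : Fin (D.v i)) (h : r ≠ s) :
    (XX D ⟨i, r⟩ - XX D ⟨i, s⟩) ∣ Del D := by
  rcases lt_or_gt_of_ne h with h2 | h2
  · have h5 := (neg_dvd (α := P D)).2 (lin_dvd_Del' D i r s h2)
    rwa [neg_sub] at h5
  · exact lin_dvd_Del' D i s r h2

/-- the product over the roots divides `Del` -/
lemma rts_dvd (l : B D → ℤ) (hl : ∀ b b', l b - l b' ≤ 1) : rts D (XX D) l ∣ Del D := by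
  have e : rts D (XX D) l = ∏ p : (Σ i : D.I, Fin (D.v i) × Fin (D.v i)),
      (XX D ⟨p.1, p.2.1⟩ - XX D ⟨p.1, p.2.2⟩) ^ (l ⟨p.1, p.2.1⟩ - l ⟨p.1, p.2.2⟩).toNat := by
    rw [rts, ← Finset.univ_sigma_univ, Finset.prod_sigma]
    refine Finset.prod_congr rfl fun i _ => ?_
    rw [← Finset.univ_product_univ, Finset.prod_product]
  rw [e]
  have hexp : ∀ b b', (l b - l b').toNat = 0 ∨ (l b - l b').toNat = 1 := by
    intro b b'
    have := hl b b'
    omega
  refine Finset.prod_dvd_of_isRelPrime ?_ fun p _ => ?_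
  · intro p _ q _ hpq
    simp only [Function.onFun]
    rcases hexp ⟨p.1, p.2.1⟩ ⟨p.1, p.2.2⟩ with h1 | h1
    · rw [h1, pow_zero]; exact isRelPrime_one_left
    rcases hexp ⟨q.1, q.2.1⟩ ⟨q.1, q.2.2⟩ with h2 | h2
    · rw [h2, pow_zero]; exact isRelPrime_one_right
    rw [h1, h2, pow_one, pow_one]
    obtain ⟨i, r, s⟩ := p
    obtain ⟨j, r', s'⟩ := q
    simp only at h1 h2
    refine isRelPrime_XX D ?_ ?_ ?_
    · intro h; rw [h] at h1; simp at h1
    · intro h; rw [h] at h2; simp at h2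
    · by_cases hij : i = j
      · subst hij
        simp only [Sigma.mk.injEq, heq_eq_eq, true_and, ne_eq, Prod.mk.injEq, not_and] at hpq ⊢
        rintro (⟨h3, h4⟩ | ⟨h3, h4⟩)
        · exact hpq h3.symm h4.symm
        · rw [h3, h4] at h2
          omega
      · rintro (⟨h3, -⟩ | ⟨h3, -⟩)
        · rw [Sigma.mk.injEq] at h3; exact hij h3.1.symm
        · rw [Sigma.mk.injEq] at h3; exact hij h3.1.symm
  · obtain ⟨i, r, s⟩ := p
    simp only
    rcases hexp ⟨i, r⟩ ⟨i, s⟩ with h1 | h1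
    · rw [h1, pow_zero]; exact one_dvd _
    rw [h1, pow_one]
    exact lin_dvd_Del D i r s (by rintro rfl; simp at h1)

/-- the transposition of two basis vectors -/
noncomputable def tr (i : D.I) (r s : Fin (D.v i)) : W D := Pi.mulSingle i (Equiv.swap r s)

lemma perm_tr (i : D.I) (r s : Fin (D.v i)) :
    perm D (tr D i r s) = Equiv.swap ⟨i, r⟩ ⟨i, s⟩ := by
  ext1 ⟨j, t⟩
  rw [perm_apply]
  by_cases h : j = i
  · subst h
    rw [tr, Pi.mulSingle_eq_same]
    rw [Equiv.swap_apply_def, Equiv.swap_apply_def]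
    by_cases h1 : t = r
    · subst h1; simp
    · by_cases h2 : t = s
      · subst h2; simp [h1]
      · simp [h1, h2]
  · rw [tr, Pi.mulSingle_eq_of_ne h]
    rw [Equiv.swap_apply_of_ne_of_ne]
    · rfl
    · intro h'; rw [Sigma.mk.injEq] at h'; exact h h'.1
    · intro h'; rw [Sigma.mk.injEq] at h'; exact h h'.1

lemma sgn_tr (i : D.I) {r s : Fin (D.v i)} (h : r ≠ s) : sgn D (tr D i r s) = -1 := by
  rw [sgn, ← Finset.mul_prod_erase _ _ (Finset.mem_univ i)]
  rw [Finset.prod_eq_one, tr, Pi.mulSingle_eq_same, Equiv.Perm.sign_swap h]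
  · simp
  · intro j hj
    rw [tr, Pi.mulSingle_eq_of_ne (Finset.ne_of_mem_erase hj)]
    simp

/-- the stabilizer of `l` in the Weyl group -/
noncomputable def stab (l : B D → ℤ) : Finset (W D) :=
  by classical exact Finset.univ.filter fun τ => ∀ b, l (perm D τ b) = l b

lemma mem_stab (l : B D → ℤ) (τ : W D) : τ ∈ stab D l ↔ ∀ b, l (perm D τ b) = l b := by
  classical
  simp [stab]

/-- antisymmetrization over the stabilizer -/
noncomputable def Alt (l : B D → ℤ) (h : P D) : P D := ∑ τ ∈ stab D l, (sgn D τ : P D) * actP D τ h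

lemma Alt_swap (l : B D → ℤ) (h : P D) (i : D.I) (r s : Fin (D.v i)) (hrs : r ≠ s)
    (hl : l ⟨i, r⟩ = l ⟨i, s⟩) : (XX D ⟨i, s⟩ - XX D ⟨i, r⟩) ∣ Alt D l h := by
  refine GUfd.dvd_of_alt _ ?_
  have h1 : ∀ f : P D, rename (Equiv.swap (Sum.inl ⟨i, s⟩ : B D ⊕ Fin D.rk) (Sum.inl ⟨i, r⟩)) f =
      actP D (tr D i r s) f := by
    intro f
    rw [actP]
    congr 2
    ext b
    cases b with
    | inl b =>
      rw [Sum.map_inl, perm_tr, Equiv.swap_comm]
      rw [Equiv.swap_apply_def, Equiv.swap_apply_def]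
      by_cases h1 : b = ⟨i, r⟩
      · simp [h1]
      · by_cases h2 : b = ⟨i, s⟩
        · simp [h2, hrs.symm]
        · simp [h1, h2]
    | inr j =>
      rw [Equiv.swap_apply_of_ne_of_ne (by simp) (by simp)]
      rfl
  have hmem : ∀ τ, tr D i r s * τ ∈ stab D l ↔ τ ∈ stab D l := by
    intro τ
    rw [mem_stab, mem_stab]
    have h2 : ∀ b, l (perm D (tr D i r s * τ) b) = l (perm D τ b) := by
      intro b
      rw [perm_mul, perm_tr, Equiv.swap_apply_def]
      split_ifs with h3 h4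
      · rw [h3, hl]
      · rw [h4, hl]
      · rfl
    simp only [h2]
  rw [h1, Alt, map_sum, ← Finset.sum_neg_distrib]
  refine Finset.sum_bij' (fun τ _ => tr D i r s * τ) (fun τ _ => (tr D i r s)⁻¹ * τ)
    (fun τ hτ => (hmem τ).2 hτ) (fun τ hτ => ?_) (fun τ _ => by rw [inv_mul_cancel_left])
    (fun τ _ => by rw [mul_inv_cancel_left]) (fun τ _ => ?_)
  · rw [← hmem, mul_inv_cancel_left]; exact hτ
  · rw [map_mul, map_intCast, ← actP_mul, sgn_mul, sgn_tr D i hrs]
    push_cast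
    ring

end Vale.Agent.P291.G
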