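import Vale.Agent.P291.GDet

set_option autoImplicit false
set_option linter.unusedSectionVars false

/-! Dictionary between functions at the roots of a monic polynomial and matrices. -/

namespace Vale.Agent.P291.GVdm

open Polynomial Matrix Vale.Agent.P291.GDet

section
variable {A B : Type*} [CommRing A] [CommRing B]

/-- columns = remainders of the polynomials `φ c` modulo `f` -/
noncomputable def colM (f : A[X]) (d : ℕ) (φ : Fin d → A[X]) : Matrix (Fin d) (Fin d) A :=
  Matrix.of fun l k => (φ k %ₘ f).coeff l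

/-- multiplication by `g` modulo `f` -/
noncomputable def MM (f : A[X]) (d : ℕ) (g : A[X]) : Matrix (Fin d) (Fin d) A :=
  colM f d fun k => g * X ^ (k : ℕ)

variable {f : A[X]} {d : ℕ} (ι : A →+* B)

lemma sum_rem (hf : f.Monic) (hd : f.natDegree = d) (y : B) (hy : eval₂ ι y f = 0) (p : A[X]) :
    ∑ l : Fin d, y ^ (l : ℕ) * ι ((p %ₘ f).coeff l) = eval₂ ι y p := by
  have h1 : eval₂ ι y p = eval₂ ι y (p %ₘ f) := by
    conv_lhs => rw [← modByMonic_add_div p f]
    rw [eval₂_add, eval₂_mul, hy, zero_mul, add_zero]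
  by_cases hf1 : f = 1
  · rw [hf1, eval₂_one] at hy
    haveI : Subsingleton B := subsingleton_of_zero_eq_one hy.symm
    exact Subsingleton.elim _ _
  · have h2 : (p %ₘ f).natDegree < d := hd ▸ natDegree_modByMonic_lt p hf hf1
    rw [h1, eval₂_eq_sum_range' ι h2, Finset.sum_range]
    exact Finset.sum_congr rfl fun l _ => mul_comm _ _

lemma vand_colM (hf : f.Monic) (hd : f.natDegree = d) (y : Fin d → B)
    (hy : ∀ r, eval₂ ι (y r) f = 0) (φ : Fin d → A[X]) :
    vandermonde y * (colM f d φ).map ι = Matrix.of fun r c => eval₂ ι (y r) (φ c) := by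
  ext r c
  rw [Matrix.mul_apply, Matrix.of_apply, ← sum_rem ι hf hd (y r) (hy r)]
  rfl

lemma vand_MM (hf : f.Monic) (hd : f.natDegree = d) (y : Fin d → B)
    (hy : ∀ r, eval₂ ι (y r) f = 0) (g : A[X]) :
    vandermonde y * (MM f d g).map ι = diagonal (fun r => eval₂ ι (y r) g) * vandermonde y := by
  rw [MM, vand_colM ι hf hd y hy]
  ext r c
  rw [Matrix.of_apply, diagonal_mul, vandermonde_apply, eval₂_mul, eval₂_pow, eval₂_X]

/-- the matrix, in the basis of powers, of multiplication by a function at the points `y` -/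
noncomputable def Md {d : ℕ} (y b : Fin d → B) : Matrix (Fin d) (Fin d) B :=
  (vandermonde y)⁻¹ * diagonal b * vandermonde y

lemma vand_Md {y : Fin d → B} (hV : IsUnit (vandermonde y).det) (b : Fin d → B) :
    vandermonde y * Md y b = diagonal b * vandermonde y := by
  rw [Md, ← Matrix.mul_assoc, ← Matrix.mul_assoc, Matrix.mul_nonsing_inv _ hV, Matrix.one_mul]

lemma vand_cancel {y : Fin d → B} (hV : IsUnit (vandermonde y).det) {M N : Matrix (Fin d) (Fin d) B}
    (h : vandermonde y * M = vandermonde y * N) : M = N := by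
  have := congrArg (fun X => (vandermonde y)⁻¹ * X) h
  simpa only [← Matrix.mul_assoc, Matrix.nonsing_inv_mul _ hV, Matrix.one_mul] using this

lemma Md_mul {y : Fin d → B} (hV : IsUnit (vandermonde y).det) (b b' : Fin d → B) :
    Md y b * Md y b' = Md y (fun r => b r * b' r) := by
  apply vand_cancel hV
  rw [← Matrix.mul_assoc, vand_Md hV, Matrix.mul_assoc, vand_Md hV, vand_Md hV, ← Matrix.mul_assoc,
    diagonal_mul_diagonal]

lemma Md_one {y : Fin d → B} (hV : IsUnit (vandermonde y).det) :
    Md y (fun _ => (1 : B)) = 1 := by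
  apply vand_cancel hV
  rw [vand_Md hV, diagonal_one, Matrix.one_mul, Matrix.mul_one]

lemma Md_eval (hf : f.Monic) (hd : f.natDegree = d) {y : Fin d → B}
    (hV : IsUnit (vandermonde y).det) (hy : ∀ r, eval₂ ι (y r) f = 0) (g : A[X]) :
    Md y (fun r => eval₂ ι (y r) g) = (MM f d g).map ι := by
  apply vand_cancel hV
  rw [vand_Md hV, vand_MM ι hf hd y hy]

lemma map_injective (hι : Function.Injective ι) :
    Function.Injective (fun M : Matrix (Fin d) (Fin d) A => M.map ι) :=
  fun _ _ h => Matrix.map_injective hι h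

/-- multiplicativity of `MM` -/
lemma MM_mul (hι : Function.Injective ι) (hf : f.Monic) (hd : f.natDegree = d) {y : Fin d → B}
    (hV : IsUnit (vandermonde y).det) (hy : ∀ r, eval₂ ι (y r) f = 0) (g h : A[X]) :
    MM f d (g * h) = MM f d g * MM f d h := by
  apply map_injective ι hι
  change (MM f d (g * h)).map ι = (MM f d g * MM f d h).map ι
  rw [Matrix.map_mul, ← Md_eval ι hf hd hV hy, ← Md_eval ι hf hd hV hy, ← Md_eval ι hf hd hV hy,
    Md_mul hV]
  congr 1
  funext r
  rw [eval₂_mul]

lemma MM_one (hι : Function.Injective ι) (hf : f.Monic) (hd : f.natDegree = d) {y : Fin d → B}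
    (hV : IsUnit (vandermonde y).det) (hy : ∀ r, eval₂ ι (y r) f = 0) :
    MM f d (1 : A[X]) = 1 := by
  apply map_injective ι hι
  change (MM f d 1).map ι = (1 : Matrix (Fin d) (Fin d) A).map ι
  rw [← Md_eval ι hf hd hV hy, Matrix.map_one ι (map_zero ι) (map_one ι), ← Md_one hV]
  congr 1
  funext r
  rw [eval₂_one]

/-- `MM` as a monoid homomorphism -/
noncomputable def MMhom (hι : Function.Injective ι) (hf : f.Monic) (hd : f.natDegree = d)
    {y : Fin d → B} (hV : IsUnit (vandermonde y).det) (hy : ∀ r, eval₂ ι (y r) f = 0) :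
    A[X] →* Matrix (Fin d) (Fin d) A where
  toFun := MM f d
  map_one' := MM_one ι hι hf hd hV hy
  map_mul' := MM_mul ι hι hf hd hV hy

/-- the determinant of mixed columns in terms of functions -/
lemma det_mixed {y : Fin d → B} (hV : IsUnit (vandermonde y).det) (S : Finset (Fin d))
    (b1 b0 : Fin d → B) (X : Matrix (Fin d) (Fin d) B) :
    (vandermonde y).det * (mixCols S (Md y b1 * X) (Md y b0 * X)).det =
      (Matrix.of fun r c => (if c ∈ S then b1 r else b0 r) * (vandermonde y * X) r c).det := by
  rw [← det_mul]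
  congr 1
  have e1 : ∀ b : Fin d → B, vandermonde y * (Md y b * X) = diagonal b * (vandermonde y * X) := by
    intro b
    rw [← Matrix.mul_assoc, vand_Md hV, Matrix.mul_assoc]
  ext r c
  rw [Matrix.of_apply]
  by_cases h : c ∈ S
  · have : (vandermonde y * mixCols S (Md y b1 * X) (Md y b0 * X)) r c =
        (vandermonde y * (Md y b1 * X)) r c := by
      rw [Matrix.mul_apply, Matrix.mul_apply]
      refine Finset.sum_congr rfl fun k _ => ?_
      rw [mixCols_apply, if_pos h]
    rw [this, e1, diagonal_mul, if_pos h]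
  · have : (vandermonde y * mixCols S (Md y b1 * X) (Md y b0 * X)) r c =
        (vandermonde y * (Md y b0 * X)) r c := by
      rw [Matrix.mul_apply, Matrix.mul_apply]
      refine Finset.sum_congr rfl fun k _ => ?_
      rw [mixCols_apply, if_neg h]
    rw [this, e1, diagonal_mul, if_neg h]

end

end Vale.Agent.P291.GVdm
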