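import Vale.Agent.P291.GSym
import Vale.Agent.P291.GVdm

set_option autoImplicit false
set_option linter.unusedSectionVars false

/-! Symmetrization: dressed monopole operators as determinants. -/

namespace Vale.Agent.P291.G

open MvPolynomial Matrix Vale.Agent.P291.GDet Vale.Agent.P291.GVdm

variable (D : QData)

section ring
variable {C C' : Type} [CommRing C] [CommRing C']

lemma map_lin (g : C →+* C') {rk : ℕ} (y : Fin rk → C) (m : Fin rk → ℤ) :
    g (lin y m) = lin (fun j => g (y j)) m := by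
  simp [lin, map_sum]

lemma map_eul (g : C →+* C') (x : B D → C) (y : Fin D.rk → C) (l : B D → ℤ) :
    g (eul D x y l) = eul D (fun b => g (x b)) (fun j => g (y j)) l := by
  simp only [eul, map_mul, map_prod, map_pow, map_add, map_sub, map_lin]

lemma map_rts (g : C →+* C') (x : B D → C) (l : B D → ℤ) :
    g (rts D x l) = rts D (fun b => g (x b)) l := by
  simp only [rts, map_prod, map_pow, map_sub]

lemma eul_reindex (x : B D → C) (y : Fin D.rk → C) (l : B D → ℤ) (τ : W D) :
    eul D (fun b => x (perm D τ b)) y (fun b => l (perm D τ b)) = eul D x y l := by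
  simp only [eul, perm_apply]
  congr 1
  · refine Finset.prod_congr rfl fun a _ => ?_
    exact Fintype.prod_equiv (τ (D.src a)) _ _ fun r =>
      Fintype.prod_equiv (τ (D.tgt a)) _ _ fun s => rfl
  · refine Finset.prod_congr rfl fun i _ => ?_
    exact Fintype.prod_equiv (τ i) _ _ fun r => rfl

lemma rts_reindex (x : B D → C) (l : B D → ℤ) (τ : W D) :
    rts D (fun b => x (perm D τ b)) (fun b => l (perm D τ b)) = rts D x l := by
  simp only [rts, perm_apply]
  refine Finset.prod_congr rfl fun i _ => ?_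
  exact Fintype.prod_equiv (τ i) _ _ fun r => Fintype.prod_equiv (τ i) _ _ fun s => rfl

lemma rts_factor (l : B D → ℤ) (i : D.I) (r s : Fin (D.v i))
    (h : (l ⟨i, r⟩ - l ⟨i, s⟩).toNat = 1) : (XX D ⟨i, r⟩ - XX D ⟨i, s⟩) ∣ rts D (XX D) l := by
  rw [rts, ← Finset.mul_prod_erase _ _ (Finset.mem_univ i),
    ← Finset.mul_prod_erase _ _ (Finset.mem_univ r),
    ← Finset.mul_prod_erase _ _ (Finset.mem_univ s), h, pow_one, mul_assoc, mul_assoc]
  exact Dvd.intro _ rfl

end ring

section
variable {K L : Type} [Field K] [Algebra ℂ K] [CommRing L] [Algebra K L]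
  (x : B D → K) (y : Fin D.rk → K) (u : (B D → ℤ) → L)

/-- evaluation as a homomorphism -/
noncomputable def EV : P D →ₐ[ℂ] K := aeval (Sum.elim x y)

lemma EV_XX (b : B D) : EV D x y (XX D b) = x b := by rw [EV, XX, aeval_X]; rfl
lemma EV_YY (j : Fin D.rk) : EV D x y (YY D j) = y j := by rw [EV, YY, aeval_X]; rfl

lemma pol_eq (f : P D) : pol D x y f = EV D x y f := rfl

lemma pol_act (σ : W D) (f : P D) : pol D (x ∘ perm D σ) y f = EV D x y (actP D σ f) := by
  rw [pol, EV, actP, aeval_rename]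
  congr 2
  funext b
  cases b <;> rfl

lemma eul_act (σ : W D) (l : B D → ℤ) :
    eul D (x ∘ perm D σ) y l = EV D x y (actP D σ (eul D (XX D) (YY D) l)) := by
  have h := map_eul D ((EV D x y).toRingHom.comp (actP D σ).toRingHom) (XX D) (YY D) l
  have h2 : ((EV D x y).toRingHom.comp (actP D σ).toRingHom) (eul D (XX D) (YY D) l) =
    EV D x y (actP D σ (eul D (XX D) (YY D) l)) := rfl
  rw [← h2, h]
  congr 1
  · funext b
    change x (perm D σ b) = EV D x y (actP D σ (XX D b))
    rw [actP_XX, EV_XX]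
  · funext b
    change y b = EV D x y (actP D σ (YY D b))
    rw [actP_YY, EV_YY]

lemma rts_act (σ : W D) (l : B D → ℤ) :
    rts D (x ∘ perm D σ) l = EV D x y (actP D σ (rts D (XX D) l)) := by
  have h := map_rts D ((EV D x y).toRingHom.comp (actP D σ).toRingHom) (XX D) l
  have h2 : ((EV D x y).toRingHom.comp (actP D σ).toRingHom) (rts D (XX D) l) =
    EV D x y (actP D σ (rts D (XX D) l)) := rfl
  rw [← h2, h]
  congr 1
  funext b
  change x (perm D σ b) = EV D x y (actP D σ (XX D b))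
  rw [actP_XX, EV_XX]

variable (hxy : AlgebraicIndependent ℂ (Sum.elim x y))
include hxy

lemma EV_inj : Function.Injective (EV D x y) := hxy

lemma EV_act_Del_ne (σ : W D) : EV D x y (actP D σ (Del D)) ≠ 0 := by
  intro h
  rw [map_eq_zero_iff _ (EV_inj D x y hxy), act_Del] at h
  rcases mul_eq_zero.1 h with h1 | h1
  · have h2 : ((sgn D σ * sgn D σ : ℤ) : P D) = 0 := by push_cast; rw [h1, zero_mul]
    rw [sgn_sq] at h2
    simp at h2
  · exact Del_ne_zero D h1

lemma EV_Del_ne : EV D x y (Del D) ≠ 0 := by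
  intro h
  rw [map_eq_zero_iff _ (EV_inj D x y hxy)] at h
  exact Del_ne_zero D h

/-- the alternating sum -/
noncomputable def TT (l : B D → ℤ) (h : P D) : L :=
  ∑ σ : W D, ((sgn D σ : K) * EV D x y (actP D σ (h * eul D (XX D) (YY D) l))) •
    u (l ∘ (perm D σ).symm)

omit hxy in
lemma EV_act_Del (σ : W D) :
    EV D x y (actP D σ (Del D)) = (sgn D σ : K) * EV D x y (Del D) := by
  rw [act_Del, map_mul, map_intCast]

omit hxy in
lemma sgn_sqK (σ : W D) : (sgn D σ : K) * (sgn D σ : K) = 1 := by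
  rw [← Int.cast_mul, sgn_sq, Int.cast_one]

lemma co_eq (l : B D → ℤ) (hl : ∀ b b', l b - l b' ≤ 1) (f h : P D)
    (hh : Del D * f = h * rts D (XX D) l) (σ : W D) :
    co D (x ∘ perm D σ) y l f = (EV D x y (Del D))⁻¹ *
      ((sgn D σ : K) * EV D x y (actP D σ (h * eul D (XX D) (YY D) l))) := by
  obtain ⟨c, hc⟩ := rts_dvd D l hl
  have h1 : EV D x y (actP D σ (rts D (XX D) l)) ≠ 0 := by
    intro h0
    apply EV_act_Del_ne D x y hxy σ
    rw [hc, map_mul, map_mul, h0, zero_mul]
  have h2 := EV_Del_ne D x y hxy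
  rw [co, pol_act, eul_act, rts_act]
  rw [div_eq_iff h1]
  have h3 := congrArg (fun p => EV D x y (actP D σ p)) hh
  simp only [map_mul] at h3
  rw [EV_act_Del] at h3
  rw [map_mul, map_mul]
  have h4 := sgn_sqK (K := K) D σ
  field_simp
  linear_combination ((sgn D σ : K) * EV D x y (actP D σ (eul D (XX D) (YY D) l))) * h3 -
    (EV D x y (Del D) * EV D x y (actP D σ f) * EV D x y (actP D σ (eul D (XX D) (YY D) l))) * h4

lemma mono_eq_TT (l : B D → ℤ) (hl : ∀ b b', l b - l b' ≤ 1) (f h : P D)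
    (hh : Del D * f = h * rts D (XX D) l) :
    mono D x y u l f = (EV D x y (Del D))⁻¹ • TT D x y u l h := by
  rw [mono, TT, Finset.smul_sum]
  refine Finset.sum_congr rfl fun σ _ => ?_
  rw [co_eq D x y hxy l hl f h hh σ, mul_smul]

/-- (i) every monopole operator is an alternating sum -/
lemma mono_TT (l : B D → ℤ) (hl : ∀ b b', l b - l b' ≤ 1) (f : P D) :
    ∃ h : P D, mono D x y u l f = (EV D x y (Del D))⁻¹ • TT D x y u l h := by
  obtain ⟨c, hc⟩ := rts_dvd D l hl
  exact ⟨c * f, mono_eq_TT D x y u hxy l hl f (c * f) (by rw [hc]; ring)⟩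

omit hxy in
lemma comp_stab {l : B D → ℤ} {τ : W D} (hτ : τ ∈ stab D l) (σ : W D) :
    l ∘ (perm D (σ * τ)).symm = l ∘ (perm D σ).symm := by
  rw [mem_stab] at hτ
  funext b
  simp only [Function.comp]
  have h1 : perm D τ ((perm D (σ * τ)).symm b) = (perm D σ).symm b := by
    rw [Equiv.eq_symm_apply, ← perm_mul, Equiv.apply_symm_apply]
  rw [← hτ, h1]

omit hxy in
lemma act_eul_stab {l : B D → ℤ} {τ : W D} (hτ : τ ∈ stab D l) :
    actP D τ (eul D (XX D) (YY D) l) = eul D (XX D) (YY D) l := by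
  have h := map_eul D (actP D τ).toRingHom (XX D) (YY D) l
  have h2 : (actP D τ).toRingHom (eul D (XX D) (YY D) l) = actP D τ (eul D (XX D) (YY D) l) := rfl
  rw [← h2, h]
  have h3 : (fun b => (actP D τ).toRingHom (XX D b)) = fun b => XX D (perm D τ b) := by
    funext b; exact actP_XX D τ b
  have h4 : (fun b => (actP D τ).toRingHom (YY D b)) = YY D := by
    funext b; exact actP_YY D τ b
  rw [h3, h4]
  have h5 : l = fun b => l (perm D τ b) := by
    funext b; exact ((mem_stab D l τ).1 hτ b).symm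
  conv_lhs => rw [h5]
  rw [eul_reindex]

/-- (ii) every alternating sum is a monopole operator -/
lemma TT_mono (l : B D → ℤ) (hl : ∀ b b', l b - l b' ≤ 1) (h : P D) :
    ∃ f : P D, (EV D x y (Del D))⁻¹ • TT D x y u l h = mono D x y u l f := by
  -- divisibility
  have hdvd : Del D ∣ Alt D l h * rts D (XX D) l := by
    refine Del_dvd D _ fun i r s hrs => ?_
    by_cases hrl : l ⟨i, r⟩ = l ⟨i, s⟩
    · exact Dvd.dvd.mul_right (Alt_swap D l h i r s (ne_of_lt hrs) hrl) _
    · refine Dvd.dvd.mul_left ?_ _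
      rcases lt_or_gt_of_ne hrl with h1 | h1
      · exact rts_factor D l i s r (by have := hl ⟨i, s⟩ ⟨i, r⟩; omega)
      · have h3 := (neg_dvd (α := P D)).2
          (rts_factor D l i r s (by have := hl ⟨i, r⟩ ⟨i, s⟩; omega))
        rwa [neg_sub] at h3
  obtain ⟨c, hc⟩ := hdvd
  set N : ℂ := ((stab D l).card : ℂ) with hN
  have hN0 : N ≠ 0 := by
    rw [hN, Nat.cast_ne_zero]
    refine Finset.card_ne_zero.2 ⟨1, ?_⟩
    rw [mem_stab]; intro b; rfl
  refine ⟨MvPolynomial.C N⁻¹ * c, ?_⟩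
  rw [mono_eq_TT D x y u hxy l hl _ (MvPolynomial.C N⁻¹ * Alt D l h) (by
    rw [mul_left_comm, ← hc]; ring)]
  congr 1
  -- compute the alternating sum of the antisymmetrization
  have h1 : TT D x y u l (MvPolynomial.C N⁻¹ * Alt D l h) =
      ∑ τ ∈ stab D l, (algebraMap ℂ K N⁻¹) • TT D x y u l h := by
    have h2 : ∀ τ ∈ stab D l, TT D x y u l h = ∑ σ : W D, ((sgn D (σ * τ) : K) *
        EV D x y (actP D (σ * τ) (h * eul D (XX D) (YY D) l))) • u (l ∘ (perm D (σ * τ)).symm) := by
      intro τ _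
      rw [TT]
      exact (Equiv.sum_comp (Equiv.mulRight τ) (fun σ : W D => ((sgn D σ : K) *
        EV D x y (actP D σ (h * eul D (XX D) (YY D) l))) • u (l ∘ (perm D σ).symm))).symm
    rw [Finset.sum_congr rfl fun τ hτ => by rw [h2 τ hτ]]
    simp only [Finset.smul_sum]
    rw [Finset.sum_comm, TT]
    refine Finset.sum_congr rfl fun σ _ => ?_
    rw [Alt, Finset.mul_sum, Finset.sum_mul, map_sum, map_sum, Finset.mul_sum, Finset.sum_smul]
    refine Finset.sum_congr rfl fun τ hτ => ?_
    rw [comp_stab D hτ, smul_smul]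
    congr 1
    rw [actP_mul, map_mul (actP D τ), act_eul_stab D hτ, sgn_mul]
    simp only [map_mul, map_intCast, Int.cast_mul]
    have h3 : EV D x y (actP D σ (MvPolynomial.C N⁻¹)) = algebraMap ℂ K N⁻¹ := by
      rw [actP, rename_C, EV, aeval_C]
    rw [h3]
    ring
  rw [h1, Finset.sum_const, ← Nat.cast_smul_eq_nsmul K, smul_smul]
  have h4 : (((stab D l).card : ℕ) : K) * algebraMap ℂ K N⁻¹ = 1 := by
    have h5 : (((stab D l).card : ℕ) : K) = algebraMap ℂ K N := by rw [hN]; simp
    rw [h5, ← map_mul, mul_inv_cancel₀ hN0, map_one]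
  rw [h4, one_smul]

end

end Vale.Agent.P291.G
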