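import Vale.Agent.P291.GSymB
import Vale.Agent.P291.GChain

set_option autoImplicit false
set_option linter.unusedSectionVars false

/-! The invariant ring, characteristic polynomials and the shape of the Euler factors. -/

namespace Vale.Agent.P291.G

open MvPolynomial Matrix Vale.Agent.P291.GDet Vale.Agent.P291.GVdm Vale.Agent.P291.GChain

variable (D : QData)

/-- invariants -/
noncomputable def Ainv : Subalgebra ℂ (P D) where
  carrier := {f | ∀ σ : W D, actP D σ f = f}
  mul_mem' := fun hf hg σ => by rw [map_mul, hf σ, hg σ]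
  add_mem' := fun hf hg σ => by rw [map_add, hf σ, hg σ]
  algebraMap_mem' := fun r σ => AlgHom.commutes _ r

lemma mem_Ainv {f : P D} : f ∈ Ainv D ↔ ∀ σ : W D, actP D σ f = f := Iff.rfl

/-- the characteristic polynomial in `P` -/
noncomputable def chP (i : D.I) : Polynomial (P D) :=
  ∏ r : Fin (D.v i), (Polynomial.X - Polynomial.C (XX D ⟨i, r⟩))

lemma chP_map (i : D.I) (σ : W D) : (chP D i).map (actP D σ).toRingHom = chP D i := by
  rw [chP, Polynomial.map_prod]
  refine Fintype.prod_equiv (σ i) _ _ fun r => ?_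
  rw [Polynomial.map_sub, Polynomial.map_X, Polynomial.map_C]
  congr 2
  exact actP_XX D σ ⟨i, r⟩

lemma exists_chA (i : D.I) : ∃ f : Polynomial (Ainv D), f.map (Ainv D).val.toRingHom = chP D i ∧
    f.natDegree = D.v i ∧ f.Monic := by
  have hm : (chP D i).Monic := Polynomial.monic_prod_of_monic _ _ fun r _ => Polynomial.monic_X_sub_C _
  have hd : (chP D i).natDegree = D.v i := by
    rw [chP, Polynomial.natDegree_prod_of_monic _ _ fun r _ => Polynomial.monic_X_sub_C _]
    simp
  have hl : chP D i ∈ Polynomial.lifts (Ainv D).val.toRingHom := by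
    rw [Polynomial.lifts_iff_coeff_lifts]
    intro n
    refine ⟨⟨(chP D i).coeff n, ?_⟩, rfl⟩
    rw [mem_Ainv]
    intro σ
    have := congrArg (fun p => p.coeff n) (chP_map D i σ)
    simp only [Polynomial.coeff_map] at this
    exact this
  obtain ⟨q, h1, h2, h3⟩ := Polynomial.lifts_and_natDegree_eq_and_monic hl hm
  exact ⟨q, h1, h2.trans hd, h3⟩

/-- the characteristic polynomial -/
noncomputable def chA (i : D.I) : Polynomial (Ainv D) := (exists_chA D i).choose

lemma chA_map (i : D.I) : (chA D i).map (Ainv D).val.toRingHom = chP D i :=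
  (exists_chA D i).choose_spec.1
lemma chA_deg (i : D.I) : (chA D i).natDegree = D.v i := (exists_chA D i).choose_spec.2.1
lemma chA_monic (i : D.I) : (chA D i).Monic := (exists_chA D i).choose_spec.2.2

lemma lin_inv (m : Fin D.rk → ℤ) : lin (YY D) m ∈ Ainv D := by
  rw [mem_Ainv]
  intro σ
  have h := map_lin (actP D σ).toRingHom (YY D) m
  have h2 : (fun b => (actP D σ).toRingHom (YY D b)) = YY D := by
    funext b; exact actP_YY D σ b
  rw [h2] at h
  exact h

section
variable (hD : ∀ a, D.v (D.tgt a) ≤ 1)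
include hD

lemma perm_tgt (σ : W D) (a : D.A) (s : Fin (D.v (D.tgt a))) :
    perm D σ ⟨D.tgt a, s⟩ = ⟨D.tgt a, s⟩ := by
  rw [perm_apply]
  congr 1
  have := hD a
  have h1 := s.2
  have h2 := (σ (D.tgt a) s).2
  exact Fin.ext (by omega)

lemma XX_inv (a : D.A) (s : Fin (D.v (D.tgt a))) : XX D ⟨D.tgt a, s⟩ ∈ Ainv D := by
  rw [mem_Ainv]
  intro σ
  rw [actP_XX, perm_tgt D hD]

/-- the factor of an arrow -/
noncomputable def la (a : D.A) : Polynomial (Ainv D) :=
  ∏ s : Fin (D.v (D.tgt a)), (Polynomial.C (⟨XX D ⟨D.tgt a, s⟩ + lin (YY D) (D.ta a),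
    (Ainv D).add_mem (XX_inv D hD a s) (lin_inv D _)⟩ : Ainv D) - Polynomial.X)

omit hD in
/-- the factor of the framing -/
noncomputable def fra (i : D.I) : Polynomial (Ainv D) :=
  ∏ k : Fin (D.w i), (Polynomial.C (⟨lin (YY D) (D.tw i k), lin_inv D _⟩ : Ainv D) - Polynomial.X)

lemma la_one (a : D.A) (h : D.v (D.tgt a) = 0) : la D hD a = 1 := by
  rw [la]
  refine Finset.prod_eq_one fun s _ => ?_
  exact absurd s.2 (by omega)

end

section
variable {C : Type} [CommRing C]

lemma eul_prod (x : B D → C) (y : Fin D.rk → C) (l : B D → ℤ) :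
    eul D x y l = ∏ b : B D, ((∏ a with D.src a = b.1, ∏ s : Fin (D.v (D.tgt a)),
      (x ⟨D.tgt a, s⟩ - x b + lin y (D.ta a)) ^ (l b - l ⟨D.tgt a, s⟩).toNat) *
      ∏ k : Fin (D.w b.1), (lin y (D.tw b.1 k) - x b) ^ (l b).toNat) := by
  rw [eul, Finset.prod_mul_distrib, Fintype.prod_sigma, Fintype.prod_sigma]
  congr 1
  set F : D.A → B D → C := fun a b => ∏ s : Fin (D.v (D.tgt a)),
      (x ⟨D.tgt a, s⟩ - x b + lin y (D.ta a)) ^ (l b - l ⟨D.tgt a, s⟩).toNat with hF
  have h1 : ∏ a, ∏ r, ∏ s, (x ⟨D.tgt a, s⟩ - x ⟨D.src a, r⟩ + lin y (D.ta a)) ^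
      (l ⟨D.src a, r⟩ - l ⟨D.tgt a, s⟩).toNat = ∏ a, ∏ r : Fin (D.v (D.src a)), F a ⟨D.src a, r⟩ := rfl
  rw [h1, ← Finset.prod_fiberwise Finset.univ D.src]
  refine Finset.prod_congr rfl fun i _ => ?_
  have h2 : (∏ r : Fin (D.v i), ∏ a with D.src a = i, F a ⟨i, r⟩) =
      ∏ a with D.src a = i, ∏ r : Fin (D.v i), F a ⟨i, r⟩ := Finset.prod_comm
  refine Eq.trans ?_ h2.symm
  refine Finset.prod_congr rfl fun a ha => ?_
  rw [Finset.mem_filter] at ha
  obtain ⟨-, ha⟩ := ha
  subst ha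
  rfl

end

/-- number of ones of `l` at `i` -/
noncomputable def mOf (l : B D → ℤ) (i : D.I) : ℕ :=
  (Finset.univ.filter fun r : Fin (D.v i) => l ⟨i, r⟩ = 1).card

lemma mOf_le (l : B D → ℤ) (i : D.I) : mOf D l i ≤ D.v i := by
  rw [mOf]
  exact (Finset.card_le_univ _).trans (by simp)

lemma mOf_eq_zero {l : B D → ℤ} {i : D.I} (h : mOf D l i = 0) (hl : Min D l) (r : Fin (D.v i)) :
    l ⟨i, r⟩ = 0 := by
  rw [mOf, Finset.card_eq_zero, Finset.filter_eq_empty_iff] at h
  exact (hl ⟨i, r⟩).resolve_right (h (Finset.mem_univ r))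

lemma mOf_tgt {l : B D → ℤ} {i : D.I} (hi : D.v i ≤ 1) (h : mOf D l i ≠ 0) (r : Fin (D.v i)) :
    l ⟨i, r⟩ = 1 := by
  rw [mOf] at h
  obtain ⟨s, hs⟩ := Finset.card_ne_zero.1 h
  have h1 := s.2
  have h2 := r.2
  have : r = s := Fin.ext (by omega)
  rw [this]
  exact (Finset.mem_filter.1 hs).2

section
variable {K : Type} [Field K] [Algebra ℂ K] (x : B D → K) (y : Fin D.rk → K)

/-- evaluation on invariants -/
noncomputable def ιK : Ainv D →+* K := (EV D x y).toRingHom.comp (Ainv D).val.toRingHom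

lemma ιK_apply (r : Ainv D) : ιK D x y r = EV D x y (r : P D) := rfl

lemma EV_lin (m : Fin D.rk → ℤ) : EV D x y (lin (YY D) m) = lin y m := by
  have h := map_lin (EV D x y).toRingHom (YY D) m
  have h2 : (fun b => (EV D x y).toRingHom (YY D b)) = y := by
    funext b; exact EV_YY D x y b
  rw [h2] at h
  exact h

lemma eval_chA (i : D.I) (r : Fin (D.v i)) :
    Polynomial.eval₂ (ιK D x y) (x ⟨i, r⟩) (chA D i) = 0 := by
  have h1 : Polynomial.eval₂ (ιK D x y) (x ⟨i, r⟩) (chA D i) =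
      Polynomial.eval₂ (EV D x y).toRingHom (x ⟨i, r⟩) (chP D i) := by
    rw [← chA_map, Polynomial.eval₂_map]; rfl
  rw [h1, chP, Polynomial.eval₂_finsetProd]
  refine Finset.prod_eq_zero (Finset.mem_univ r) ?_
  rw [Polynomial.eval₂_sub, Polynomial.eval₂_X, Polynomial.eval₂_C]
  have : (EV D x y).toRingHom (XX D ⟨i, r⟩) = x ⟨i, r⟩ := EV_XX D x y _
  rw [this, sub_self]

variable (hD : ∀ a, D.v (D.tgt a) ≤ 1)

lemma eval_la (a : D.A) (z : K) : Polynomial.eval₂ (ιK D x y) z (la D hD a) =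
    ∏ s : Fin (D.v (D.tgt a)), (x ⟨D.tgt a, s⟩ - z + lin y (D.ta a)) := by
  rw [la, Polynomial.eval₂_finsetProd]
  refine Finset.prod_congr rfl fun s _ => ?_
  rw [Polynomial.eval₂_sub, Polynomial.eval₂_X, Polynomial.eval₂_C, ιK_apply]
  simp only [map_add, EV_XX, EV_lin]
  ring

lemma eval_fra (i : D.I) (z : K) : Polynomial.eval₂ (ιK D x y) z (fra D i) =
    ∏ k : Fin (D.w i), (lin y (D.tw i k) - z) := by
  rw [fra, Polynomial.eval₂_finsetProd]
  refine Finset.prod_congr rfl fun s _ => ?_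
  rw [Polynomial.eval₂_sub, Polynomial.eval₂_X, Polynomial.eval₂_C, ιK_apply]
  simp only [EV_lin]

lemma eval_gpol (fr : D.I → Polynomial (Ainv D)) (i : D.I) (m : D.I → ℕ) (z : K) :
    Polynomial.eval₂ (ιK D x y) z (gpol D.src D.tgt fr (la D hD) i m) =
    Polynomial.eval₂ (ιK D x y) z (fr i) * ∏ a with D.src a = i ∧ m (D.tgt a) = 0,
      ∏ s : Fin (D.v (D.tgt a)), (x ⟨D.tgt a, s⟩ - z + lin y (D.ta a)) := by
  rw [gpol, Polynomial.eval₂_mul, Polynomial.eval₂_finsetProd]
  congr 1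
  exact Finset.prod_congr rfl fun a _ => eval_la D x y hD a z

/-- Euler factor of a positive minuscule cocharacter -/
lemma eul_pos (l : B D → ℤ) (hl : Min D l) (σ : W D) :
    eul D (x ∘ perm D σ) y l = ∏ b : B D, if l b = 1 then
      Polynomial.eval₂ (ιK D x y) (x (perm D σ b))
        (gpol D.src D.tgt (fra D) (la D hD) b.1 (mOf D l)) else 1 := by
  rw [eul_prod]
  refine Finset.prod_congr rfl fun b _ => ?_
  split_ifs with hb
  · rw [eval_gpol, eval_fra, mul_comm]
    congr 1
    · refine Finset.prod_congr rfl fun k _ => ?_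
      rw [hb]; simp [Function.comp]
    · rw [Finset.prod_filter, Finset.prod_filter]
      refine Finset.prod_congr rfl fun a _ => ?_
      by_cases h1 : D.src a = b.1
      · by_cases h2 : mOf D l (D.tgt a) = 0
        · rw [if_pos h1, if_pos ⟨h1, h2⟩]
          refine Finset.prod_congr rfl fun s _ => ?_
          rw [hb, mOf_eq_zero D h2 hl s]
          simp only [Function.comp, perm_tgt D hD]
          simp
        · rw [if_pos h1, if_neg (fun h => h2 h.2)]
          refine Finset.prod_eq_one fun s _ => ?_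
          rw [hb, mOf_tgt D (hD a) h2 s]
          simp
      · rw [if_neg h1, if_neg (fun h => h1 h.1)]
  · have hb0 : l b = 0 := (hl b).resolve_right hb
    rw [hb0]
    have h1 : ∀ a, ∀ s : Fin (D.v (D.tgt a)), (0 - l ⟨D.tgt a, s⟩).toNat = 0 := by
      intro a s
      rcases hl ⟨D.tgt a, s⟩ with h | h <;> simp [h]
    rw [Finset.prod_eq_one (fun a _ => Finset.prod_eq_one fun s _ => by rw [h1, pow_zero]), one_mul]
    exact Finset.prod_eq_one fun k _ => by simp

/-- Euler factor of a negative minuscule cocharacter -/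
lemma eul_neg (l : B D → ℤ) (hl : Min D l) (σ : W D) :
    eul D (x ∘ perm D σ) y (-l) = ∏ b : B D, if l b = 1 then 1 else
      Polynomial.eval₂ (ιK D x y) (x (perm D σ b))
        (gpol D.src D.tgt 1 (la D hD) b.1 (fun i => D.v i - mOf D l i)) := by
  rw [eul_prod]
  refine Finset.prod_congr rfl fun b _ => ?_
  split_ifs with hb
  · rw [Pi.neg_apply, hb]
    have h1 : ∀ a, ∀ s : Fin (D.v (D.tgt a)), (-1 - (-l) ⟨D.tgt a, s⟩).toNat = 0 := by
      intro a s
      rcases hl ⟨D.tgt a, s⟩ with h | h <;> simp [h]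
    rw [Finset.prod_eq_one (fun a _ => Finset.prod_eq_one fun s _ => by rw [h1, pow_zero]), one_mul]
    exact Finset.prod_eq_one fun k _ => by simp
  · have hb0 : l b = 0 := (hl b).resolve_right hb
    rw [eval_gpol, Pi.one_apply, Polynomial.eval₂_one, one_mul, Pi.neg_apply, hb0]
    have h0 : ∏ k : Fin (D.w b.1), (lin y (D.tw b.1 k) - (x ∘ perm D σ) b) ^ (-(0 : ℤ)).toNat = 1 := by
      simp
    rw [h0, mul_one, Finset.prod_filter, Finset.prod_filter]
    refine Finset.prod_congr rfl fun a _ => ?_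
    by_cases h1 : D.src a = b.1
    · by_cases h2 : D.v (D.tgt a) - mOf D l (D.tgt a) = 0
      · rw [if_pos h1, if_pos ⟨h1, h2⟩]
        refine Finset.prod_congr rfl fun s _ => ?_
        have h3 : mOf D l (D.tgt a) ≠ 0 := by
          have := s.2
          omega
        rw [Pi.neg_apply, mOf_tgt D (hD a) h3 s]
        simp only [Function.comp, perm_tgt D hD]
        simp
      · rw [if_pos h1, if_neg (fun h => h2 h.2)]
        refine Finset.prod_eq_one fun s _ => ?_
        have h3 : mOf D l (D.tgt a) = 0 := by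
          have := hD a
          omega
        rw [Pi.neg_apply, mOf_eq_zero D h3 hl s]
        simp
    · rw [if_neg h1, if_neg (fun h => h1 h.1)]

end

end Vale.Agent.P291.G
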