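import Vale.Agent.P291.GSymC

set_option autoImplicit false
set_option linter.unusedSectionVars false

/-! Dressed monopole operators as products of determinants. -/

namespace Vale.Agent.P291.G

open MvPolynomial Matrix Vale.Agent.P291.GDet Vale.Agent.P291.GVdm Vale.Agent.P291.GChain

variable (D : QData)

section
variable {K L : Type} [Field K] [Algebra ℂ K] [CommRing L] [Algebra K L]
  (x : B D → K) (y : Fin D.rk → K) (u : (B D → ℤ) → L)

/-- evaluation on invariants with values in `L` -/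
noncomputable def ιL : Ainv D →+* L := (algebraMap K L).comp (ιK D x y)

/-- the roots in `L` -/
noncomputable def yL (i : D.I) (r : Fin (D.v i)) : L := algebraMap K L (x ⟨i, r⟩)

/-- the columns in `S` at the vertex `i` -/
noncomputable def cols (l : B D → ℤ) (i : D.I) : Finset (Fin (D.v i)) :=
  Finset.univ.filter fun c => l ⟨i, c⟩ = 1

/-- matrix of columns over the invariants -/
noncomputable def Xm (φ : B D → Polynomial (Ainv D)) (i : D.I) :
    Matrix (Fin (D.v i)) (Fin (D.v i)) (Ainv D) := colM (chA D i) (D.v i) fun c => φ ⟨i, c⟩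

/-- the determinant of the vertex `i` -/
noncomputable def DDi (l : B D → ℤ) (β1 β0 : B D → L) (φ : B D → Polynomial (Ainv D)) (i : D.I) : L :=
  (mixCols (cols D l i) (Md (yL D x i) (fun r => β1 ⟨i, r⟩) * (Xm D φ i).map (ιL D x y (L := L)))
    (Md (yL D x i) (fun r => β0 ⟨i, r⟩) * (Xm D φ i).map (ιL D x y (L := L)))).det

lemma ιL_apply (r : Ainv D) : ιL D x y (L := L) r = algebraMap K L (EV D x y (r : P D)) := rfl

lemma eval_ιL (z : K) (p : Polynomial (Ainv D)) :
    Polynomial.eval₂ (ιL D x y (L := L)) (algebraMap K L z) p =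
      algebraMap K L (Polynomial.eval₂ (ιK D x y) z p) := by
  rw [ιL, Polynomial.hom_eval₂]

lemma eval_chL (i : D.I) (r : Fin (D.v i)) :
    Polynomial.eval₂ (ιL D x y (L := L)) (yL D x i r) (chA D i) = 0 := by
  rw [yL, eval_ιL, eval_chA, map_zero]

variable (hxy : AlgebraicIndependent ℂ (Sum.elim x y))
include hxy

lemma x_inj : Function.Injective x := by
  have h := hxy.injective
  exact fun a b hab => Sum.inl_injective (h (by simpa using hab))

lemma vK_unit (i : D.I) : (vandermonde fun r : Fin (D.v i) => x ⟨i, r⟩).det ≠ 0 := by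
  rw [det_vandermonde_ne_zero_iff]
  intro r s h
  have := x_inj D x y hxy h
  simpa using this

omit hxy in
lemma vL_eq (i : D.I) : (vandermonde (yL D x i (L := L))).det =
    algebraMap K L (vandermonde fun r : Fin (D.v i) => x ⟨i, r⟩).det := by
  rw [RingHom.map_det]
  congr 1
  ext r c
  simp [vandermonde_apply, yL]

lemma vL_unit (i : D.I) : IsUnit (vandermonde (yL D x i (L := L))).det := by
  rw [vL_eq]
  exact (IsUnit.mk0 _ (vK_unit D x y hxy i)).map (algebraMap K L)

omit hxy in
lemma EV_Del : EV D x y (Del D) = ∏ i, (vandermonde fun r : Fin (D.v i) => x ⟨i, r⟩).det := by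
  rw [Del, map_prod]
  refine Finset.prod_congr rfl fun i _ => ?_
  rw [AlgHom.map_det]
  congr 1
  ext r c
  rw [AlgHom.mapMatrix_apply, Matrix.map_apply, vandermonde_apply, map_pow, EV_XX, vandermonde_apply]

/-- the polynomial of a family of one-variable polynomials -/
noncomputable def hφ (φ : B D → Polynomial (Ainv D)) : P D :=
  ∏ b : B D, Polynomial.eval₂ (Ainv D).val.toRingHom (XX D b) (φ b)

omit hxy in
lemma EV_act_hφ (σ : W D) (φ : B D → Polynomial (Ainv D)) :
    EV D x y (actP D σ (hφ D φ)) =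
      ∏ b : B D, Polynomial.eval₂ (ιK D x y) (x (perm D σ b)) (φ b) := by
  rw [hφ, map_prod, map_prod]
  refine Finset.prod_congr rfl fun b _ => ?_
  have h1 : EV D x y (actP D σ (Polynomial.eval₂ (Ainv D).val.toRingHom (XX D b) (φ b))) =
      ((EV D x y).toRingHom.comp (actP D σ).toRingHom)
        (Polynomial.eval₂ (Ainv D).val.toRingHom (XX D b) (φ b)) := rfl
  rw [h1, Polynomial.hom_eval₂]
  have h2 : ((EV D x y).toRingHom.comp (actP D σ).toRingHom).comp (Ainv D).val.toRingHom =
      ιK D x y := by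
    ext r
    change EV D x y (actP D σ (r : P D)) = EV D x y (r : P D)
    rw [(mem_Ainv D).1 r.2 σ]
  have h3 : ((EV D x y).toRingHom.comp (actP D σ).toRingHom) (XX D b) = x (perm D σ b) := by
    change EV D x y (actP D σ (XX D b)) = _
    rw [actP_XX, EV_XX]
  rw [h2, h3]

/-- the determinant formula -/
lemma TT_DD (l l' : B D → ℤ) (β1 β0 : B D → L)
    (hβ : ∀ σ : W D, algebraMap K L (EV D x y (actP D σ (eul D (XX D) (YY D) l'))) *
      u (l' ∘ (perm D σ).symm) = ∏ b : B D, if l b = 1 then β1 (perm D σ b) else β0 (perm D σ b))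
    (κ : Ainv D) (φ : B D → Polynomial (Ainv D)) :
    (EV D x y (Del D))⁻¹ • TT D x y u l' ((κ : P D) * hφ D φ) =
      ιL D x y κ * ∏ i, DDi D x y l β1 β0 φ i := by
  have h0 := EV_Del_ne D x y hxy
  rw [inv_smul_eq_iff₀ h0, Algebra.smul_def, EV_Del, map_prod, ← mul_assoc, mul_comm _ (ιL D x y κ),
    mul_assoc, ← Finset.prod_mul_distrib]
  have h1 : ∀ i, algebraMap K L (vandermonde fun r : Fin (D.v i) => x ⟨i, r⟩).det *
      DDi D x y l β1 β0 φ i = (Matrix.of fun r c : Fin (D.v i) =>
        (if l ⟨i, c⟩ = 1 then β1 ⟨i, r⟩ else β0 ⟨i, r⟩) *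
        algebraMap K L (Polynomial.eval₂ (ιK D x y) (x ⟨i, r⟩) (φ ⟨i, c⟩))).det := by
    intro i
    rw [← vL_eq, DDi, det_mixed (vL_unit D x y hxy i)]
    congr 1
    ext r c
    rw [Matrix.of_apply, Matrix.of_apply, Xm, vand_colM (ιL D x y) (chA_monic D i) (chA_deg D i) _
      (fun r => eval_chL D x y i r), Matrix.of_apply, yL, eval_ιL]
    congr 1
    simp [cols]
  have h1' : ∀ i, algebraMap K L (vandermonde fun r : Fin (D.v i) => x ⟨i, r⟩).det *
      DDi D x y l β1 β0 φ i = ∑ τ : Equiv.Perm (Fin (D.v i)), ((Equiv.Perm.sign τ : ℤ) : L) *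
        ((∏ r, if l ⟨i, r⟩ = 1 then β1 ⟨i, τ r⟩ else β0 ⟨i, τ r⟩) *
        ∏ r, algebraMap K L (Polynomial.eval₂ (ιK D x y) (x ⟨i, τ r⟩) (φ ⟨i, r⟩))) := by
    intro i
    rw [h1, det_apply']
    refine Finset.sum_congr rfl fun τ _ => ?_
    rw [← Finset.prod_mul_distrib]
    rfl
  rw [Finset.prod_congr rfl fun i _ => h1' i, Finset.prod_univ_sum, Fintype.piFinset_univ,
    Finset.mul_sum, TT]
  refine Finset.sum_congr rfl fun σ _ => ?_
  rw [Algebra.smul_def]
  have h2 : EV D x y (actP D σ ((κ : P D) * hφ D φ * eul D (XX D) (YY D) l')) =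
      EV D x y (κ : P D) * (∏ b : B D, Polynomial.eval₂ (ιK D x y) (x (perm D σ b)) (φ b)) *
      EV D x y (actP D σ (eul D (XX D) (YY D) l')) := by
    rw [map_mul, map_mul, map_mul, map_mul, EV_act_hφ, (mem_Ainv D).1 κ.2 σ]
  rw [h2, map_mul, map_mul, map_mul, mul_assoc, mul_assoc, hβ σ, ιL_apply, map_intCast, sgn]
  rw [Int.cast_prod, map_prod, Finset.prod_mul_distrib, Fintype.prod_sigma, Fintype.prod_sigma]
  simp only [perm_apply, Finset.prod_mul_distrib]
  ring

end

end Vale.Agent.P291.G
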