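import Vale.Agent.P291.GSymD

set_option autoImplicit false
set_option linter.unusedSectionVars false

/-! The two families of dressed monopole operators and their values at `u = 1`. -/

namespace Vale.Agent.P291.G

open MvPolynomial Matrix Vale.Agent.P291.GDet Vale.Agent.P291.GVdm Vale.Agent.P291.GChain

variable (D : QData)

section
variable {K L : Type} [Field K] [Algebra ℂ K] [CommRing L] [Algebra K L]
  (x : B D → K) (y : Fin D.rk → K) (u : (B D → ℤ) → L)

/-- the products of determinants -/
def DDset (l : B D → ℤ) (β1 β0 : B D → L) : Set L :=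
  {z | ∃ (κ : Ainv D) (φ : B D → Polynomial (Ainv D)),
    z = ιL D x y κ * ∏ i, DDi D x y l β1 β0 φ i}

lemma TT_add (l : B D → ℤ) (p q : P D) :
    TT D x y u l (p + q) = TT D x y u l p + TT D x y u l q := by
  rw [TT, TT, TT, ← Finset.sum_add_distrib]
  refine Finset.sum_congr rfl fun σ _ => ?_
  rw [← add_smul, add_mul, map_add, map_add, mul_add]

variable (hxy : AlgebraicIndependent ℂ (Sum.elim x y))
include hxy

lemma TT_mem (l l' : B D → ℤ) (β1 β0 : B D → L)
    (hβ : ∀ σ : W D, algebraMap K L (EV D x y (actP D σ (eul D (XX D) (YY D) l'))) *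
      u (l' ∘ (perm D σ).symm) = ∏ b : B D, if l b = 1 then β1 (perm D σ b) else β0 (perm D σ b))
    (h : P D) :
    (EV D x y (Del D))⁻¹ • TT D x y u l' h ∈ AddSubgroup.closure (DDset D x y l β1 β0) := by
  induction h using MvPolynomial.induction_on' with
  | monomial s c =>
    apply AddSubgroup.subset_closure
    have hκ : (MvPolynomial.C c : P D) * ∏ j, YY D j ^ s (Sum.inr j) ∈ Ainv D := by
      rw [mem_Ainv]
      intro σ
      rw [map_mul, map_prod]
      congr 1
      · rw [actP, rename_C]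
      · refine Finset.prod_congr rfl fun j _ => ?_
        rw [map_pow, actP_YY]
    refine ⟨⟨_, hκ⟩, fun b => Polynomial.X ^ s (Sum.inl b), ?_⟩
    rw [← TT_DD D x y u hxy l l' β1 β0 hβ]
    congr 2
    rw [monomial_eq, Finsupp.prod_fintype _ _ (fun _ => pow_zero _), Fintype.prod_sum_type]
    change _ = MvPolynomial.C c * (∏ j, YY D j ^ s (Sum.inr j)) * _
    rw [mul_assoc]
    congr 1
    rw [mul_comm]
    congr 1
    rw [hφ]
    refine Finset.prod_congr rfl fun b _ => ?_
    rw [Polynomial.eval₂_pow, Polynomial.eval₂_X]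
    rfl
  | add p q hp hq =>
    rw [TT_add, smul_add]
    exact AddSubgroup.add_mem _ hp hq

/-- monopole operators lie in the span of products of determinants -/
lemma mono_mem (l l' : B D → ℤ) (hl' : ∀ b b', l' b - l' b' ≤ 1) (β1 β0 : B D → L)
    (hβ : ∀ σ : W D, algebraMap K L (EV D x y (actP D σ (eul D (XX D) (YY D) l'))) *
      u (l' ∘ (perm D σ).symm) = ∏ b : B D, if l b = 1 then β1 (perm D σ b) else β0 (perm D σ b))
    (f : P D) : mono D x y u l' f ∈ AddSubgroup.closure (DDset D x y l β1 β0) := by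
  obtain ⟨h, hh⟩ := mono_TT D x y u hxy l' hl' f
  rw [hh]
  exact TT_mem D x y u hxy l l' β1 β0 hβ h

/-- products of determinants are monopole operators -/
lemma DD_mono (l l' : B D → ℤ) (hl' : ∀ b b', l' b - l' b' ≤ 1) (β1 β0 : B D → L)
    (hβ : ∀ σ : W D, algebraMap K L (EV D x y (actP D σ (eul D (XX D) (YY D) l'))) *
      u (l' ∘ (perm D σ).symm) = ∏ b : B D, if l b = 1 then β1 (perm D σ b) else β0 (perm D σ b))
    (κ : Ainv D) (φ : B D → Polynomial (Ainv D)) :
    ∃ f : P D, ιL D x y κ * ∏ i, DDi D x y l β1 β0 φ i = mono D x y u l' f := by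
  rw [← TT_DD D x y u hxy l l' β1 β0 hβ]
  exact TT_mono D x y u hxy l' hl' _

omit hxy

/-- unit cocharacters -/
def dl (b : B D) : B D → ℤ := Pi.single b 1

lemma min_sub {l : B D → ℤ} (hl : Min D l) (b b' : B D) : l b - l b' ≤ 1 := by
  rcases hl b with h | h <;> rcases hl b' with h' | h' <;> rw [h, h'] <;> norm_num

lemma min_sub_neg {l : B D → ℤ} (hl : Min D l) (b b' : B D) : (-l) b - (-l) b' ≤ 1 := by
  rw [Pi.neg_apply, Pi.neg_apply]
  rcases hl b with h | h <;> rcases hl b' with h' | h' <;> rw [h, h'] <;> norm_num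

lemma comp_eq_sum {l : B D → ℤ} (hl : Min D l) (σ : W D) :
    l ∘ (perm D σ).symm = ∑ b, if l b = 1 then dl D (perm D σ b) else 0 := by
  funext b'
  rw [Finset.sum_apply, Finset.sum_eq_single ((perm D σ).symm b')]
  · rw [Function.comp]
    rcases hl ((perm D σ).symm b') with h | h
    · rw [h]; simp
    · rw [h, if_pos rfl, Equiv.apply_symm_apply, dl, Pi.single_eq_same]
  · intro b _ hb
    split_ifs
    · rw [dl, Pi.single_eq_of_ne]
      intro h
      apply hb
      rw [h, Equiv.symm_apply_apply]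
    · rfl
  · intro h
    exact absurd (Finset.mem_univ _) h

section
variable (hu : ∀ l l', u (l + l') = u l * u l') (hu0 : u 0 = 1)
include hu hu0

lemma u_sum {ι : Type} (s : Finset ι) (f : ι → B D → ℤ) :
    u (∑ b ∈ s, f b) = ∏ b ∈ s, u (f b) := by
  classical
  induction s using Finset.induction_on with
  | empty => simpa using hu0
  | insert a s ha ih => rw [Finset.sum_insert ha, Finset.prod_insert ha, hu, ih]

lemma u_comp {l : B D → ℤ} (hl : Min D l) (σ : W D) :
    u (l ∘ (perm D σ).symm) = ∏ b, if l b = 1 then u (dl D (perm D σ b)) else 1 := by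
  rw [comp_eq_sum D hl, u_sum D u hu hu0]
  refine Finset.prod_congr rfl fun b _ => ?_
  split_ifs
  · rfl
  · exact hu0

lemma u_comp_neg {l : B D → ℤ} (hl : Min D l) (σ : W D) :
    u ((-l) ∘ (perm D σ).symm) = ∏ b, if l b = 1 then u (-dl D (perm D σ b)) else 1 := by
  have h1 : (-l) ∘ (perm D σ).symm = -(l ∘ (perm D σ).symm) := rfl
  rw [h1, comp_eq_sum D hl, ← Finset.sum_neg_distrib, u_sum D u hu hu0]
  refine Finset.prod_congr rfl fun b _ => ?_
  split_ifs
  · rfl
  · rw [neg_zero, hu0]

variable (hD : ∀ a, D.v (D.tgt a) ≤ 1)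

/-- weights of the positive operators -/
noncomputable def bE (l : B D → ℤ) (b : B D) : L :=
  algebraMap K L (Polynomial.eval₂ (ιK D x y) (x b)
    (gpol D.src D.tgt (fra D) (la D hD) b.1 (mOf D l))) * u (dl D b)

/-- weights of the negative operators -/
noncomputable def bF (l : B D → ℤ) (b : B D) : L :=
  algebraMap K L (Polynomial.eval₂ (ιK D x y) (x b)
    (gpol D.src D.tgt 1 (la D hD) b.1 fun i => D.v i - mOf D l i))

lemma hβE {l : B D → ℤ} (hl : Min D l) (σ : W D) :
    algebraMap K L (EV D x y (actP D σ (eul D (XX D) (YY D) l))) *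
      u (l ∘ (perm D σ).symm) =
      ∏ b : B D, if l b = 1 then bE D x y u hD l (perm D σ b) else (fun _ => 1) (perm D σ b) := by
  rw [← eul_act, eul_pos D x y hD l hl, map_prod, u_comp D u hu hu0 hl, ← Finset.prod_mul_distrib]
  refine Finset.prod_congr rfl fun b _ => ?_
  split_ifs
  · rfl
  · rw [map_one, mul_one]

lemma hβF {l : B D → ℤ} (hl : Min D l) (σ : W D) :
    algebraMap K L (EV D x y (actP D σ (eul D (XX D) (YY D) (-l)))) *
      u ((-l) ∘ (perm D σ).symm) =
      ∏ b : B D, if l b = 1 then (fun b => u (-dl D b)) (perm D σ b) else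
        bF D x y hD l (perm D σ b) := by
  rw [← eul_act, eul_neg D x y hD l hl, map_prod, u_comp_neg D u hu hu0 hl,
    ← Finset.prod_mul_distrib]
  refine Finset.prod_congr rfl fun b _ => ?_
  split_ifs
  · rw [map_one, one_mul]
  · rw [mul_one]; rfl

end

end

end Vale.Agent.P291.G
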