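import Mathlib.Algebra.AffineMonoid.Basic
import Mathlib.Algebra.AffineMonoid.UniqueSums
import Mathlib.Algebra.MvPolynomial.Comap
import Mathlib.Algebra.MvPolynomial.Funext
import Mathlib.Algebra.Order.Ring.Star
import Mathlib.Algebra.Order.Sub.Prod
import Mathlib.Computability.Reduce
import Mathlib.Data.Finset.MulAntidiagonal
import Mathlib.Data.Finset.Sups
import Mathlib.Data.FunLike.Fintype
import Mathlib.Data.Int.Star
import Mathlib.Data.List.GetD
import Mathlib.Data.Rat.Star
import Mathlib.Geometry.Manifold.Algebra.Monoid
import Mathlib.LinearAlgebra.Matrix.Swap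
import Mathlib.LinearAlgebra.Matrix.ZPow
import Mathlib.Order.CompletePartialOrder
import Mathlib.RingTheory.MvPolynomial.IrreducibleQuadratic
import Mathlib.RingTheory.Polynomial.Resultant.Basic
import Mathlib.RingTheory.SimpleRing.Principal
import Mathlib.Tactic

/-! The part of Mathlib that the development of this folder uses. -/
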